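import Claimed.Agent.R252.Base.Seq

/-!
# ROW 252 (S0492), unit S4 (helper128), file Rebase: CHANGE OF UNITS `N₀ ↦ N₀^c`  (04-critical-paths.tex l.24-29).      No `sorry`.   Imports `Base/Seq` only (so `Base/Hub2` may import this file).

`E' = E.rebase c hc` has the SAME one-scale problems and systems; depths, costs, log-densities and narrowness are divided by `c`:
`kp4_rb_ok`, `kp4_rb_typ`, `kp4_rb_hom`, `kp4_rb_sys`, `kp4_rb_true`, `kp4_rb_sat`, `kp4_rb_known`, `kp4_rb_chexp`, `kp4_rb_narrow`, `kp4_rb_costs`, `kp4_rb_hor`.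
-/

set_option autoImplicit false

namespace Claimed.Agent.R252

open MeasureTheory Filter Topology
open Claimed.Agent.R255 (uf)
open scoped ENNReal BigOperators Pointwise

noncomputable section

variable {v : KbVer} (E : KbEx v) (c : ℝ) (hc : 0 < c)

/-- eventually `N'^x = N^(c x)` -/
theorem kp4_rb_ev : ∀ᶠ k in uf, ∀ x : ℝ, (E.rebase c hc).R.N k ^ x = E.R.N k ^ (c * x) := by
  filter_upwards [(kb_rpow_tendsto E.R hc).eventually_ge_atTop 2] with k hk x
  have h1 : (E.rebase c hc).R.N k = E.R.N k ^ c := max_eq_right hk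
  rw [h1, ← Real.rpow_mul (kb_res_pos E.R k).le]

/-- transfer of a predicate with one slack -/
theorem kp4_rb_iff (Φ Ψ : ℕ → ℝ → Prop) (h : ∀ᶠ k in uf, ∀ K, Φ k K ↔ Ψ k K) :
    (∀ τ : ℝ, 0 < τ → ∀ᶠ k in uf, Φ k ((E.rebase c hc).R.N k ^ τ)) ↔ ∀ τ : ℝ, 0 < τ → ∀ᶠ k in uf, Ψ k (E.R.N k ^ τ) := by
  constructor
  · intro H τ hτ
    filter_upwards [kp4_rb_ev E c hc, h, H (τ / c) (by positivity)] with k hk hk' hH
    have e : c * (τ / c) = τ := by field_simp
    rw [hk, e] at hH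
    exact (hk' _).1 hH
  · intro H τ hτ
    filter_upwards [kp4_rb_ev E c hc, h, H (c * τ) (by positivity)] with k hk hk' hH
    rw [hk]
    exact (hk' _).2 hH

/-- transfer of `∃ M, ∀ᶠ k, Φ k (N^M)` -/
theorem kp4_rb_ex (Φ : ℕ → ℝ → Prop) :
    (∃ M : ℝ, ∀ᶠ k in uf, Φ k ((E.rebase c hc).R.N k ^ M)) ↔ ∃ M : ℝ, ∀ᶠ k in uf, Φ k (E.R.N k ^ M) := by
  constructor
  · rintro ⟨M, H⟩
    refine ⟨c * M, ?_⟩
    filter_upwards [kp4_rb_ev E c hc, H] with k hk hH
    rw [hk] at hH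
    exact hH
  · rintro ⟨M, H⟩
    refine ⟨M / c, ?_⟩
    filter_upwards [kp4_rb_ev E c hc, H] with k hk hH
    have e : c * (M / c) = M := by field_simp
    rw [hk, e]
    exact hH

theorem kp4_rb_a : ∀ᶠ k in uf, ∀ r : ℝ, (E.rebase c hc).a r k = E.a (c * r) k := by
  filter_upwards [kp4_rb_ev E c hc] with k hk r
  unfold KbEx.a
  rw [hk, mul_neg]

theorem kp4_rb_ok : (E.rebase c hc).Ok ↔ E.Ok := by
  unfold KbEx.Ok
  have h1 : (0 < (E.rebase c hc).L) ↔ 0 < E.L := by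
    show 0 < E.L / c ↔ 0 < E.L
    exact div_pos_iff_of_pos_right hc
  have h2 := kp4_rb_ex E c hc fun k Q => (E.P k).WF ∧ (E.P k).Tmp Q
  have h3 := kp4_rb_iff E c hc (fun k K => (E.P k).Ntv K) (fun k K => (E.P k).Ntv K) (Eventually.of_forall fun _ _ => Iff.rfl)
  exact and_congr h1 (and_congr h2 h3)

theorem kp4_rb_pow (x : ℕ → ℝ) : KbPow (E.rebase c hc).R x ↔ KbPow E.R x := by
  constructor
  · rintro ⟨e, he, H⟩
    refine ⟨c * e, by positivity, ?_⟩
    filter_upwards [kp4_rb_ev E c hc, H] with k hk hH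
    rw [hk, mul_neg] at hH
    exact hH
  · rintro ⟨e, he, H⟩
    refine ⟨e / c, by positivity, ?_⟩
    filter_upwards [kp4_rb_ev E c hc, H] with k hk hH
    have e1 : c * -(e / c) = -e := by field_simp
    rw [hk, e1]
    exact hH

theorem kp4_pow_congr (R : KbRes) {x y : ℕ → ℝ} (h : ∀ᶠ k in uf, x k = y k) : KbPow R x ↔ KbPow R y := by
  constructor
  · rintro ⟨e, he, H⟩
    exact ⟨e, he, by filter_upwards [h, H] with k hk hH; rw [← hk]; exact hH⟩
  · rintro ⟨e, he, H⟩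
    exact ⟨e, he, by filter_upwards [h, H] with k hk hH; rw [hk]; exact hH⟩

/-- typical densities; the labels may differ on a `uf`-small set of indices -/
theorem kp4_rb_typ {D : Type} (ℓ' : (E.rebase c hc).Lab D) (ℓ : E.Lab D) (hℓ : ∀ᶠ k in uf, ℓ' k = ℓ k) (f : ℝ) :
    (E.rebase c hc).Typ ℓ' f ↔ E.Typ ℓ (c * f) := by
  unfold KbEx.Typ KbEx.TypUp KbEx.TypLo
  constructor
  · rintro ⟨H1, H2⟩
    constructor
    · intro τ hτ
      refine (kp4_pow_congr E.R ?_).1 ((kp4_rb_pow E c hc _).1 (H1 (τ / c) (by positivity)))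
      filter_upwards [kp4_rb_ev E c hc, hℓ] with k hk hk'
      have e : c * (-f + τ / c) = -(c * f) + τ := by field_simp
      show (((E.P k).mass ((E.P k).above (ℓ' k) ((E.rebase c hc).R.N k ^ (-f + τ / c))))).toReal = _
      rw [hk, e, hk']
      rfl
    · intro τ hτ
      refine (kp4_pow_congr E.R ?_).1 ((kp4_rb_pow E c hc _).1 (H2 (τ / c) (by positivity)))
      filter_upwards [kp4_rb_ev E c hc, hℓ] with k hk hk'
      have e : c * (-f - τ / c) = -(c * f) - τ := by field_simp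
      show (((E.P k).mass ((E.P k).below (ℓ' k) ((E.rebase c hc).R.N k ^ (-f - τ / c))))).toReal = _
      rw [hk, e, hk']
      rfl
  · rintro ⟨H1, H2⟩
    constructor
    · intro τ hτ
      refine (kp4_rb_pow E c hc _).2 ((kp4_pow_congr E.R ?_).1 (H1 (c * τ) (by positivity)))
      filter_upwards [kp4_rb_ev E c hc, hℓ] with k hk hk'
      have e : c * (-f + τ) = -(c * f) + c * τ := by ring
      show _ = (((E.P k).mass ((E.P k).above (ℓ' k) ((E.rebase c hc).R.N k ^ (-f + τ))))).toReal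
      rw [hk, e, hk']
      rfl
    · intro τ hτ
      refine (kp4_rb_pow E c hc _).2 ((kp4_pow_congr E.R ?_).1 (H2 (c * τ) (by positivity)))
      filter_upwards [kp4_rb_ev E c hc, hℓ] with k hk hk'
      have e : c * (-f - τ) = -(c * f) - c * τ := by ring
      show _ = (((E.P k).mass ((E.P k).below (ℓ' k) ((E.rebase c hc).R.N k ^ (-f - τ))))).toReal
      rw [hk, e, hk']
      rfl

theorem kp4_rb_hid (r : ℝ) : ∀ᶠ k in uf, (E.rebase c hc).hid r k = E.hid (c * r) k := by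
  filter_upwards [kp4_rb_a E c hc] with k hk
  unfold KbEx.hid
  rw [hk]
  rfl

theorem kp4_rb_hv (r u : ℝ) : ∀ᶠ k in uf, (E.rebase c hc).hv r u k = E.hv (c * r) (c * u) k := by
  filter_upwards [kp4_rb_a E c hc] with k hk
  unfold KbEx.hv
  rw [hk, hk]
  rfl

/-- the rescaled profile -/
def kp4Rf (c : ℝ) (f : ℝ → ℝ → ℝ) : ℝ → ℝ → ℝ := fun r u => f (c * r) (c * u) / c

theorem kp4_rb_hom (f : ℝ → ℝ → ℝ) (h : E.Hom f) : (E.rebase c hc).Hom (kp4Rf c f) := by
  have hmem : ∀ r ∈ Set.Icc 0 (E.rebase c hc).L, c * r ∈ Set.Icc 0 E.L := by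
    intro r hr
    have h2 : r ≤ E.L / c := hr.2
    rw [le_div_iff₀ hc] at h2
    exact ⟨mul_nonneg hc.le hr.1, by linarith⟩
  constructor
  · intro r hr
    rw [kp4_rb_typ E c hc _ _ (kp4_rb_hid E c hc r)]
    have e : c * kp4Rf c f r 0 = f (c * r) 0 := by
      unfold kp4Rf
      rw [mul_zero]
      field_simp
    rw [e]
    exact h.pure _ (hmem r hr)
  · intro r hr u hu
    rw [kp4_rb_typ E c hc _ _ (kp4_rb_hv E c hc r u)]
    have e : c * kp4Rf c f r u = f (c * r) (c * u) := by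
      unfold kp4Rf
      field_simp
    rw [e]
    exact h.joint _ (hmem r hr) _ (mul_nonneg hc.le hu)

/-! ## Systems -/

theorem kp4_rb_exp (x : ℕ → ℝ) (e : ℝ) : KbExp (E.rebase c hc).R x e ↔ KbExp E.R x (c * e) := by
  constructor
  · intro H τ hτ
    filter_upwards [kp4_rb_ev E c hc, H (τ / c) (by positivity)] with k hk hH
    have e1 : c * (-e - τ / c) = -(c * e) - τ := by field_simp
    have e2 : c * (-e + τ / c) = -(c * e) + τ := by field_simp
    rw [hk, hk, e1, e2] at hH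
    exact hH
  · intro H τ hτ
    filter_upwards [kp4_rb_ev E c hc, H (c * τ) (by positivity)] with k hk hH
    have e1 : c * (-e - τ) = -(c * e) - c * τ := by ring
    have e2 : c * (-e + τ) = -(c * e) + c * τ := by ring
    rw [hk, hk, e1, e2]
    exact hH

theorem kp4_rb_chexp (Y : E.Sys) (x : ∀ k, (Y k).C → ℝ) (e : ℝ) : (E.rebase c hc).ChExp Y x e ↔ E.ChExp Y x (c * e) := by
  constructor
  · intro H τ hτ
    filter_upwards [kp4_rb_ev E c hc, H (τ / c) (by positivity)] with k hk hH c'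
    have e1 : c * (-e - τ / c) = -(c * e) - τ := by field_simp
    have e2 : c * (-e + τ / c) = -(c * e) + τ := by field_simp
    have := hH c'
    rw [hk, hk, e1, e2] at this
    exact this
  · intro H τ hτ
    filter_upwards [kp4_rb_ev E c hc, H (c * τ) (by positivity)] with k hk hH c'
    have e1 : c * (-e - τ) = -(c * e) - c * τ := by ring
    have e2 : c * (-e + τ) = -(c * e) + c * τ := by ring
    rw [hk, hk, e1, e2]
    exact hH c'

theorem kp4_rb_narrow (Y : E.Sys) (l : ℝ) : (E.rebase c hc).Narrow Y l ↔ E.Narrow Y (c * l) := by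
  unfold KbEx.Narrow
  rw [kp4_rb_chexp, mul_neg]
  exact Iff.rfl

theorem kp4_rb_true (Y : E.Sys) (e : ℝ) : (E.rebase c hc).IsTrue Y e ↔ E.IsTrue Y (c * e) := by
  refine kp4_rb_iff E c hc (fun k K => (Y k).Tru K ((E.rebase c hc).R.N k ^ (-e))) (fun k K => (Y k).Tru K (E.R.N k ^ (-(c * e)))) ?_
  filter_upwards [kp4_rb_ev E c hc] with k hk K
  rw [hk, mul_neg]

theorem kp4_rb_sat (Y : E.Sys) (e : ℝ) : (E.rebase c hc).IsSat Y e ↔ E.IsSat Y (c * e) := by
  refine kp4_rb_iff E c hc (fun k K => (Y k).Sat K ((E.rebase c hc).R.N k ^ (-e))) (fun k K => (Y k).Sat K (E.R.N k ^ (-(c * e)))) ?_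
  filter_upwards [kp4_rb_ev E c hc] with k hk K
  rw [hk, mul_neg]

theorem kp4_rb_known (Y : E.Sys) (s : ℝ) : (E.rebase c hc).IsKnown Y s ↔ E.IsKnown Y (c * s) := by
  refine kp4_rb_iff E c hc (fun k K => (Y k).Known ((E.rebase c hc).hid s k) K) (fun k K => (Y k).Known (E.hid (c * s) k) K) ?_
  filter_upwards [kp4_rb_hid E c hc s] with k hk K
  rw [hk]

theorem kp4_rb_sys (Y : E.Sys) (r h : ℝ) : (E.rebase c hc).IsSys Y r h ↔ E.IsSys Y (c * r) (c * h) := by
  unfold KbEx.IsSys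
  have h1 := kp4_rb_ex E c hc fun k Q => (Y k).WF ∧ (Y k).Tmp Q
  have h2 := kp4_rb_iff E c hc (fun k K => (Y k).Geo K ((E.rebase c hc).a r k) ∧ (Y k).Big K) (fun k K => (Y k).Geo K (E.a (c * r) k) ∧ (Y k).Big K) (by
    filter_upwards [kp4_rb_a E c hc] with k hk K
    rw [hk])
  have h3 := kp4_rb_exp E c hc (fun k => (Y k).q) h
  exact and_congr h1 (and_congr h2 h3)

theorem kp4_rb_atlas (Y : E.Sys) (r h : ℝ) : (E.rebase c hc).IsAtlas Y r h ↔ E.IsAtlas Y (c * r) (c * h) := by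
  unfold KbEx.IsAtlas
  rw [kp4_rb_sys, kp4_rb_known]
  have e : c * (E.rebase c hc).L = E.L := by
    show c * (E.L / c) = E.L
    field_simp
  rw [e]

theorem kp4_rb_truesys (f : ℝ → ℝ → ℝ) (Y : E.Sys) (r h : ℝ) :
    (E.rebase c hc).IsTrueSys (kp4Rf c f) Y r h ↔ E.IsTrueSys f Y (c * r) (c * h) := by
  unfold KbEx.IsTrueSys
  rw [kp4_rb_sys, kp4_rb_true]
  have e : c * kp4Rf c f r 0 = f (c * r) 0 := by
    unfold kp4Rf
    rw [mul_zero]
    field_simp
  rw [e]

/-- the costs are divided by `c` -/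
theorem kp4_rb_costs (f : ℝ → ℝ → ℝ) (h : ℝ) : h ∈ (E.rebase c hc).costs (kp4Rf c f) ↔ c * h ∈ E.costs f := by
  unfold KbEx.costs
  have e : c * (E.rebase c hc).L = E.L := by
    show c * (E.L / c) = E.L
    field_simp
  constructor
  · rintro ⟨h0, Y, hY⟩
    have hY' := (kp4_rb_truesys E c hc f Y _ h).1 hY
    rw [e] at hY'
    exact ⟨mul_nonneg hc.le h0, Y, hY'⟩
  · rintro ⟨h0, Y, hY⟩
    refine ⟨nonneg_of_mul_nonneg_right h0 hc, Y, (kp4_rb_truesys E c hc f Y _ h).2 ?_⟩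
    rw [e]
    exact hY

/-- the horizon is divided by `c` -/
theorem kp4_rb_hor (f : ℝ → ℝ → ℝ) : (E.rebase c hc).Hor (kp4Rf c f) = E.Hor f / c := by
  unfold KbEx.Hor
  have hset : (E.rebase c hc).costs (kp4Rf c f) = c⁻¹ • E.costs f := by
    ext h
    rw [kp4_rb_costs, Set.mem_smul_set]
    constructor
    · intro hh
      exact ⟨c * h, hh, by simp [hc.ne']⟩
    · rintro ⟨y, hy, rfl⟩
      have : c * (c⁻¹ • y) = y := by simp [hc.ne']
      rw [this]
      exact hy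
  rw [hset, Real.sInf_smul_of_nonneg (inv_nonneg.2 hc.le), smul_eq_mul, div_eq_inv_mul]

end

end Claimed.Agent.R252
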