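import Claimed.Agent.R252.S4.Sam

/-!
# ROW 252 (S0492), unit S4 (post BP-252-T3-S4, chief helper269), file 3: CRITICAL PROBLEMS, PATHS, AND THE HUBS OF SEC 4.      CONTRACT file: the hubs are `def .. : Prop`; the glue is proved.

* `KpPath v`, `π.Ok d' S η`  a chain `E 0, E 1 = (E 0).norm (Y 0) (r 0), ..` of remaining problems with PREPARED true systems `Y g` of `E g` (true floor, saturation, label known at its own depth, homogeneous narrowness); SAME FORMAT as `K4aPath`
                            (helper23).   Cumulative systems in the coordinates of an ancestor `E g₀` are iterated `lift`s (cast along `step`; prove facts about casts for a VARIABLE `F` with `h : F = ..` and `subst h`).   (P4.3 (2).)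
* `KpCrit v S η p`          EXIT of Sec 4.1 for `ell < ∞`, without outer sequences ("`i` large" = "for every tolerance there is an exact problem"):   for every `ζ` there is `δ ≤ ζ` such that for every finite grid there is
                            a path on the grid in `C(d + ζ)`, base length one, with linear cumulative horizons (error `δ / 4`: nodes RELATIVE to a parent node are `δ/2`-cheap) and narrowness (error `ζ`) (P4.3 (2), (3)), such that in EVERY remaining problem of length `≥ 1/8`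
                            the relative profile is linear (P4.3 (1)), every known atlas costs `≥ k r - ζ` and every `δ`-cheap known atlas has narrowness `≤ ell r + ζ` (`a03:excluded-improvements`).
* `KpCritInf v S η d k`     the same for `ell = ∞` (P4.3 (4)): narrowness increments `≥ Λ` on every segment.   Consumer: Sec 9.
* HUBS:  `KpHubRates` (S4A: 23, 128),   `KpHubSam` (S4B + S4C: 127, 294),   `KpHubUpgrade` (S4D + S4E: 230, 222),   `KpHubBreadth` (S4F: 127).      GLUE: `kp_tangent`.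
-/

set_option autoImplicit false

namespace Claimed.Agent.R252

open MeasureTheory Filter Topology
open Claimed.Agent.R255 (uf)
open scoped ENNReal BigOperators

noncomputable section

variable {v : KbVer}

/-- **a path** (data only): `E 0` = the base problem, `Y g` = a system of `E g`, `E (g + 1)` = the remaining problem of `E g` through `Y g` (same format as `K4aPath`).
All exponents are in the units of the common resolution `N₀` (no rescaling of lengths); `r, h, nar` are the depth, time cost and narrowness of the STEP `g`. -/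
structure KpPath (v : KbVer) where
  /-- index of the last node -/
  G : ℕ
  E : ℕ → KbEx v
  /-- the profiles -/
  f : ℕ → ℝ → ℝ → ℝ
  Y : ∀ g, (E g).Sys
  r : ℕ → ℝ
  h : ℕ → ℝ
  nar : ℕ → ℝ

namespace KpPath

variable (π : KpPath v)

/-- cumulative depth of the node `g` -/
def cr (g : ℕ) : ℝ := ∑ i ∈ Finset.range (g + 1), π.r i

/-- cumulative horizon exponent -/
def chz (g : ℕ) : ℝ := ∑ i ∈ Finset.range (g + 1), π.h i

/-- cumulative narrowness exponent -/
def cnar (g : ℕ) : ℝ := ∑ i ∈ Finset.range (g + 1), π.nar i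

/-- the requirements on a path: PREPARED true systems (true floor, saturation, label known at its own depth, homogeneous narrowness), each in the remaining problem of the preceding one; the last one is terminal.
"Full layer assignments, priors and witnesses" = the fields `A`, `S` of every `Y g`; the event of `E (g + 1)` is the selection of `Y g`. -/
structure Ok (d' S η : ℝ) : Prop where
  step : ∀ g < π.G, π.E (g + 1) = (π.E g).norm (π.Y g) (π.r g)
  cap : ∀ g ≤ π.G, (π.E g).Cap d' S η (π.f g)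
  r_pos : ∀ g ≤ π.G, 0 < π.r g
  r_lt : ∀ g < π.G, π.r g < (π.E g).L
  r_end : π.r π.G = (π.E π.G).L
  sys : ∀ g ≤ π.G, (π.E g).IsTrueSys (π.f g) (π.Y g) (π.r g) (π.h g)
  sat : ∀ g ≤ π.G, (π.E g).IsSat (π.Y g) (π.f g (π.r g) 0)
  own : ∀ g ≤ π.G, (π.E g).IsKnown (π.Y g) (π.r g)
  nar : v = KbVer.two → ∀ g ≤ π.G, (π.E g).Narrow (π.Y g) (π.nar g)
  /-- consecutive profiles: the profile of the remaining problem is the shifted profile, normalised to `0` at depth `0` (`kb_norm` + saturation: `J / ν = N^{f (r)}`); in particular `f (g + 1) 0 0 = 0` -/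
  link : ∀ g < π.G, ∀ s : ℝ, 0 ≤ s → s ≤ (π.E (g + 1)).L → π.f (g + 1) s 0 = π.f g (π.r g + s) 0 - π.f g (π.r g) 0

end KpPath

/-- a grid of target depths ending at one -/
def KpGrid (G : ℕ) (tg : ℕ → ℝ) : Prop := 0 < tg 0 ∧ (∀ g < G, tg g < tg (g + 1)) ∧ tg G = 1

/-- every known atlas at depth `r` costs at least `k r - ζ` -/
def KpExcl1 (E : KbEx v) (k ζ : ℝ) : Prop := ∀ (Y : E.Sys) (r h : ℝ), 0 ≤ r → r < E.L → E.IsAtlas Y r h → k * r - ζ ≤ h

/-- every `δ`-cheap known atlas in the first half has narrowness at most `ell r + ζ` -/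
def KpExcl2 (E : KbEx v) (k ell δ ζ : ℝ) : Prop :=
  ∀ (Y : E.Sys) (r h x : ℝ), 0 ≤ r → r ≤ E.L / 2 → E.IsAtlas Y r h → E.Narrow Y x → h ≤ k * r + δ → x ≤ ell * r + ζ

/-- **the exit of Sec 4.1, finite optimised narrowness.**   The linear profile and the two exclusions hold in EVERY remaining problem `E g` of length `≥ 1/8` (they are again maximizing). -/
def KpCrit (v : KbVer) (S η : ℝ) (p : KpPrm) : Prop :=
  ∀ ζ : ℝ, 0 < ζ → ∃ δ : ℝ, 0 < δ ∧ δ ≤ ζ ∧ ∀ (G : ℕ) (tg : ℕ → ℝ), KpGrid G tg →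
    ∃ (π : KpPath v) (d' : ℝ), (π.E 0).L = 1 ∧ d' ≤ p.d + ζ ∧ π.G = G ∧ π.Ok d' S η ∧
      (∀ g ≤ G, |π.cr g - tg g| ≤ ζ ∧ |π.chz g - p.k * π.cr g| ≤ δ / 4 ∧ (v = KbVer.two → |π.cnar g - p.ell * π.cr g| ≤ ζ)) ∧
      ∀ g ≤ G, 1 / 8 ≤ (π.E g).L →
        (∀ r ∈ Set.Icc (0 : ℝ) (π.E g).L, |π.f g r 0 - π.f g 0 0 - p.d * r| ≤ ζ) ∧
        KpExcl1 (π.E g) p.k ζ ∧ (v = KbVer.two → KpExcl2 (π.E g) p.k p.ell δ ζ)

/-- **the exit of Sec 4.1, unbounded optimised narrowness**: narrowness `≥ Λ` on every step -/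
def KpCritInf (v : KbVer) (S η d k : ℝ) : Prop :=
  ∀ ζ Λ : ℝ, 0 < ζ → ∀ (G : ℕ) (tg : ℕ → ℝ), KpGrid G tg →
    ∃ (π : KpPath v) (d' : ℝ), (π.E 0).L = 1 ∧ d' ≤ d + ζ ∧ π.G = G ∧ π.Ok d' S η ∧
      (∀ g ≤ G, |π.cr g - tg g| ≤ ζ ∧ |π.chz g - k * π.cr g| ≤ ζ ∧ Λ ≤ π.nar g) ∧
      ∀ g ≤ G, 1 / 8 ≤ (π.E g).L →
        (∀ r ∈ Set.Icc (0 : ℝ) (π.E g).L, |π.f g r 0 - π.f g 0 0 - d * r| ≤ ζ) ∧ KpExcl1 (π.E g) k ζ

/-! ## The hubs -/

/-- S4A (`a03:positive-rate`, `prop:critical-path`, `a03:excluded-improvements`): bad problems give critical exponents -/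
def KpHubRates : Prop :=
  ∀ (v : KbVer) (S η d₀ : ℝ), 0 < S → 0 < η → KbBad v S η d₀ →
    ∃ p : KpPrm, p.Ok ∧ p.S = S ∧ (v = KbVer.one → p.ell = 0) ∧ (KpCrit v S η p ∨ (v = KbVer.two ∧ KpCritInf v S η p.d p.k))

/-- S4B + S4C (tangent diagonal, `a03:finite-guard`, `prop:tangent-palette`, first part of `a03:finite-state-conditioning`) -/
def KpHubSam : Prop :=
  ∀ (v : KbVer) (S η : ℝ) (p : KpPrm), 0 < η → p.Ok → p.S = S → (v = KbVer.one → p.ell = 0) → KpCrit v S η p → ∃ (R : KbRes) (s : ℕ → KpSam v), KpSamSeqOk R s p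

/-- S4D + S4E (`prop:candidate-upgrade`) -/
def KpHubUpgrade : Prop :=
  ∀ (v : KbVer) (p : KpPrm) (R : KbRes) (s : ℕ → KpSam v), p.Ok → (v = KbVer.one → p.ell = 0) → KpSamSeqOk R s p → ¬ KpCandHyp R (fun n => (s n).tan) p

/-- S4F (`a03:breadth`) -/
def KpHubBreadth : Prop :=
  ∀ (v : KbVer) (p : KpPrm) (R : KbRes) (s : ℕ → KpSam v), p.Ok → p.ell = 0 → KpSamSeqOk R s p → KpBreadth fun n => (s n).tan

theorem kp_seq_tan {R : KbRes} {s : ℕ → KpSam v} {p : KpPrm} (h : KpSamSeqOk R s p) : KpSeqOk R (fun n => (s n).tan) p :=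
  ⟨fun n => (h.1 n).symm, fun τ hτ => (h.2 τ hτ).mono fun _ hn => hn.tan⟩

/-- **the exit of Sec 4 for the consumers (Secs 6, 7, 8)**: tangent data on which the candidate hypothesis FAILS -/
theorem kp_tangent (hS : KpHubSam) (hU : KpHubUpgrade) (hB : KpHubBreadth) (v : KbVer) (S η : ℝ) (p : KpPrm) (hη : 0 < η) (hp : p.Ok) (hpS : p.S = S)
    (h1 : v = KbVer.one → p.ell = 0) (hc : KpCrit v S η p) :
    ∃ (R : KbRes) (X : ℕ → KpTan v), KpSeqOk R X p ∧ (p.ell = 0 → KpBreadth X) ∧ ¬ KpCandHyp R X p := by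
  obtain ⟨R, s, hs⟩ := hS v S η p hη hp hpS h1 hc
  exact ⟨R, fun n => (s n).tan, kp_seq_tan hs, fun h0 => hB v p R s hp h0 hs, hU v p R s hp h1 hs⟩

end

end Claimed.Agent.R252
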