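import Claimed.Agent.R252.S4.ExitB
import Claimed.Agent.R252.S4.Rebase

/-!
# ROW 252 (S0492), unit S4 (helper128), file Exit: **`KpHubRates` IS PROVED** from the exits of `S4A` (helper23), the instance `kp4Fr` and `S4/Rebase.lean`.      No `sorry` in this file.

`kp4_hub_rates : KpHubRates` (statement of helper269, `S4/Crit.lean`): bad problems give critical exponents `p = (d_*, k, ell, S)` with `KpCrit v S η p` (version 1; version 2 with `Lam ≠ ∅`) or `KpCritInf` (version 2, `Lam = ∅`).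
`kp4_rebase`: change of units `N₀ ↦ N₀^L` (04 l.25-30): a problem of the frame can be replaced by one of length one; cap classes, relative horizon and the relative narrowness bounds are preserved.
-/

set_option autoImplicit false

namespace Claimed.Agent.R252

open MeasureTheory Filter Topology
open Claimed.Agent.R255 (uf)
open scoped ENNReal BigOperators

noncomputable section

variable {v : KbVer} {S η : ℝ}

/-- the problem of the frame in the units `N₀^L` -/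
def kp4One (X₀ : Kp4Pb v S η) : Kp4Pb v S η where
  E := X₀.E.rebase X₀.E.L X₀.ok.1
  f := kp4Rf X₀.E.L X₀.f
  ok := (kp4_rb_ok X₀.E X₀.E.L X₀.ok.1).2 X₀.ok
  hom := kp4_rb_hom X₀.E X₀.E.L X₀.ok.1 X₀.f X₀.hom
  ang := by
    have hL := X₀.ok.1
    intro u hu huL
    have e1 : (X₀.E.rebase X₀.E.L X₀.ok.1).L = 1 := div_self hL.ne'
    rw [e1] at huL ⊢
    rw [mul_one] at huL
    have := X₀.ang (X₀.E.L * u) (by positivity) (by nlinarith)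
    unfold kp4Rf
    rw [mul_one, mul_zero, div_add' _ _ _ hL.ne', div_le_div_iff_of_pos_right hL]
    linarith

theorem kp4_one_L (X₀ : Kp4Pb v S η) : (kp4One X₀).E.L = 1 := div_self X₀.ok.1.ne'

theorem kp4_one_f (X₀ : Kp4Pb v S η) (x : ℝ) : X₀.E.L * (kp4One X₀).f x 0 = X₀.f (X₀.E.L * x) 0 := by
  have hL := X₀.ok.1
  show X₀.E.L * kp4Rf X₀.E.L X₀.f x 0 = _
  unfold kp4Rf
  rw [mul_zero]
  field_simp

/-- an atlas of the rescaled problem, read in the old units -/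
def kp4Back (X₀ : Kp4Pb v S η) (A : Kp4At (kp4One X₀)) : Kp4At X₀ where
  Y := A.Y
  r := X₀.E.L * A.r
  h := X₀.E.L * A.h
  l := X₀.E.L * A.l
  r0 := mul_nonneg X₀.ok.1.le A.r0
  rL := by
    have h1 := A.rL
    rw [kp4_one_L] at h1
    have := X₀.ok.1
    nlinarith
  atlas := (kp4_rb_atlas X₀.E X₀.E.L X₀.ok.1 A.Y A.r A.h).1 A.atlas
  nar := (kp4_rb_narrow X₀.E X₀.E.L X₀.ok.1 A.Y A.l).1 A.nar

theorem kp4_back_tru (X₀ : Kp4Pb v S η) (A : Kp4At (kp4One X₀)) (h : A.Tru) : (kp4Back X₀ A).Tru := by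
  obtain ⟨h1, h2, h3⟩ := h
  refine ⟨?_, ?_, (kp4_rb_known X₀.E X₀.E.L X₀.ok.1 A.Y A.r).1 h3⟩
  · have := (kp4_rb_true X₀.E X₀.E.L X₀.ok.1 A.Y _).1 h1
    rw [kp4_one_f] at this
    exact this
  · have := (kp4_rb_sat X₀.E X₀.E.L X₀.ok.1 A.Y _).1 h2
    rw [kp4_one_f] at this
    exact this

/-- **change of units `N₀ ↦ N₀^L`** (04 l.25-30): a problem of the frame can be replaced by one of length one -/
theorem kp4_rebase (X₀ : Kp4Pb v S η) : ∃ X₁ : Kp4Pb v S η, X₁.E.L = 1 ∧ (∀ d, (kp4Fr v S η).InC d X₀ → (kp4Fr v S η).InC d X₁) ∧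
    (kp4Fr v S η).H X₁ = (kp4Fr v S η).H X₀ / X₀.E.L ∧ ∀ δ' c, (kp4Fr v S η).NarLe δ' c X₀ → (kp4Fr v S η).NarLe δ' c X₁ := by
  have hL := X₀.ok.1
  refine ⟨kp4One X₀, kp4_one_L X₀, ?_, ?_, ?_⟩
  · rintro d ⟨hd, hcap⟩
    refine ⟨hd, fun r hr0 hr1 => ?_⟩
    have hr1' : r ≤ (kp4One X₀).E.L := hr1
    rw [kp4_one_L] at hr1'
    show (kp4One X₀).f (kp4One X₀).E.L 0 - (kp4One X₀).f r 0 ≤ d * ((kp4One X₀).E.L - r)
    rw [kp4_one_L]
    have a1 := kp4_one_f X₀ 1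
    have a2 := kp4_one_f X₀ r
    rw [mul_one] at a1
    have a0 : X₀.E.L * r ≤ X₀.E.L := by nlinarith
    have a3 : X₀.f X₀.E.L 0 - X₀.f (X₀.E.L * r) 0 ≤ d * (X₀.E.L - X₀.E.L * r) := hcap (X₀.E.L * r) (by positivity) a0
    rw [← a1, ← a2] at a3
    have a4 : X₀.E.L * ((kp4One X₀).f 1 0 - (kp4One X₀).f r 0) ≤ X₀.E.L * (d * (1 - r)) := by linarith
    exact le_of_mul_le_mul_left a4 hL
  · rw [kp4_H_eq, kp4_H_eq]
    exact kp4_rb_hor X₀.E X₀.E.L X₀.ok.1 X₀.f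
  · intro δ' c hN A hA hc
    have hAr : A.r = (kp4One X₀).E.L := hA.2
    rw [kp4_one_L] at hAr
    have hc' : A.h ≤ ((kp4Fr v S η).kst + δ') * (kp4One X₀).E.L := hc
    rw [kp4_one_L, mul_one] at hc'
    have key := hN (kp4Back X₀ A) ⟨kp4_back_tru X₀ A hA.1, by
      show X₀.E.L * A.r = X₀.E.L
      rw [hAr, mul_one]⟩ (by
      show X₀.E.L * A.h ≤ ((kp4Fr v S η).kst + δ') * X₀.E.L
      nlinarith)
    have key' : (kp4Back X₀ A).nr ≤ c * X₀.E.L := key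
    show A.nr ≤ c * (kp4One X₀).E.L
    rw [kp4_one_L, mul_one]
    unfold Kp4At.nr at key' ⊢
    split_ifs at key' ⊢
    · have : X₀.E.L * A.l ≤ c * X₀.E.L := key'
      have h2 : X₀.E.L * A.l ≤ X₀.E.L * c := by linarith
      exact le_of_mul_le_mul_left h2 hL
    · have h2 : X₀.E.L * 0 ≤ X₀.E.L * c := by linarith
      exact le_of_mul_le_mul_left h2 hL

theorem kp4_mx_one {δ : ℝ} (X₀ : Kp4Pb v S η) (h : (kp4Fr v S η).Mx δ X₀) : ∃ X₁ : Kp4Pb v S η, X₁.E.L = 1 ∧ (kp4Fr v S η).Mx δ X₁ ∧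
    ∀ δ' c, (kp4Fr v S η).NarLe δ' c X₀ → (kp4Fr v S η).NarLe δ' c X₁ := by
  obtain ⟨X₁, h1, h2, h3, h4⟩ := kp4_rebase X₀
  refine ⟨X₁, h1, ⟨h2 _ h.1, ?_⟩, h4⟩
  have hL : 0 < X₀.E.L := X₀.ok.1
  have h5 : ((kp4Fr v S η).kst - δ) * X₀.E.L ≤ (kp4Fr v S η).H X₀ := h.2
  show ((kp4Fr v S η).kst - δ) * X₁.E.L ≤ (kp4Fr v S η).H X₁
  rw [h1, h3, mul_one, le_div_iff₀ hL]
  exact h5

theorem kp4_grid {G : ℕ} {tg : ℕ → ℝ} (h : KpGrid G tg) : K4aGrid G tg := ⟨h.1, h.2.1, h.2.2⟩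

/-- a fitted path whose base problem has length one and a prescribed property -/
theorem kp4_stage_one (hX : (kp4Fr v S η).Hub) (hB : (kp4Fr v S η).Bad) {c : ℝ} (hc : c ∉ (kp4Fr v S η).Lam) {n : ℕ} {r : ℕ → ℝ}
    (hr : K4aGrid n r) {θ : ℝ} (hθ : 0 < θ) (hθ1 : (kp4Fr v S η).dst + θ < 1) (Q : Kp4Pb v S η → Prop)
    (hQ : ∀ δ : ℝ, 0 < δ → (kp4Fr v S η).dst + δ < 1 → ∃ E : Kp4Pb v S η, (kp4Fr v S η).Mx δ E ∧ E.E.L = 1 ∧ Q E) :
    ∃ p : K4aPath (kp4Fr v S η), p.n = n ∧ (Kp4Pb.E (p.E 0)).L = 1 ∧ Q (p.E 0) ∧ p.Fit r c θ := by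
  obtain ⟨δ, hδ, hδθ, key⟩ := k4a_stage hX hB hc hr hθ hθ1
  obtain ⟨E, h1, h2, h3⟩ := hQ δ hδ (by linarith)
  obtain ⟨⟨p, p1, p2, p3⟩, _, _⟩ := key E h1
  exact ⟨p, p1, by rw [p2]; exact h2, by rw [p2]; exact h3, p3⟩

/-- the part of `KpCrit` / `KpCritInf` which holds on every fitted path of small tolerance with base length one -/
theorem kp4_common (hX : (kp4Fr v S η).Hub) (hB : (kp4Fr v S η).Bad) (ζ : ℝ) (hζ : 0 < ζ) :
    ∃ θ₀ : ℝ, 0 < θ₀ ∧ (kp4Fr v S η).dst + θ₀ < 1 ∧ θ₀ ≤ ζ ∧ ∀ (p : K4aPath (kp4Fr v S η)) (r : ℕ → ℝ) (c θ : ℝ), 0 < θ → θ ≤ θ₀ →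
      ∀ h : p.Fit r c θ, (Kp4Pb.E (p.E 0)).L = 1 →
        (∀ g ≤ p.n, 0 < p.cdep g ∧ p.cdep g ≤ 1 ∧ |(kp4Path p h.ok).cr g - r g| ≤ θ ∧
          |(kp4Path p h.ok).chz g - (kp4Fr v S η).kst * (kp4Path p h.ok).cr g| ≤ θ) ∧
        ∀ g ≤ p.n, (Kp4Pb.E (p.E g)).L ≤ 1 ∧
          (∀ x ∈ Set.Icc (0 : ℝ) (Kp4Pb.E (p.E g)).L, |Kp4Pb.f (p.E g) x 0 - Kp4Pb.f (p.E g) 0 0 - (kp4Fr v S η).dst * x| ≤ ζ) ∧
          KpExcl1 (Kp4Pb.E (p.E g)) (kp4Fr v S η).kst ζ := by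
  obtain ⟨δp, hp0, hp1, hp⟩ := k4a_profile_eps hX hB hζ
  obtain ⟨δe, he0, he1, he⟩ := k4a_excl_depth_eps hX hB hζ
  refine ⟨min (min δp δe) ζ, lt_min (lt_min hp0 he0) hζ, ?_, min_le_right _ _, ?_⟩
  · have : min (min δp δe) ζ ≤ δp := (min_le_left _ _).trans (min_le_left _ _)
    linarith
  intro p r c θ hθ hθ0 h hL
  have hθp : θ ≤ δp := hθ0.trans ((min_le_left _ _).trans (min_le_left _ _))
  have hθe : θ ≤ δe := hθ0.trans ((min_le_left _ _).trans (min_le_right _ _))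
  have hL' : (kp4Fr v S η).len (p.E 0) = 1 := hL
  constructor
  · intro g hg
    obtain ⟨c1, c2⟩ := k4a_fit_cdep hX h hg
    obtain ⟨d1, d2⟩ := k4a_fit_chor hX h hg
    have e1 := h.depth g hg
    rw [hL'] at c2 e1
    rw [mul_one, mul_one] at e1
    refine ⟨c1, c2, e1, ?_⟩
    rw [kp4_path_chz, kp4_path_cr, abs_le]
    constructor <;> nlinarith
  · intro g hg
    have hlen := kp4_path_len hX p h.ok g hg
    have hs := (kp4_fit_sums h g hg).2.2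
    have hLg : (Kp4Pb.E (p.E g)).L ≤ 1 := by
      have : (kp4Fr v S η).len (p.E g) ≤ 1 := by rw [hlen, hL']; linarith
      exact this
    have hLg0 : 0 < (Kp4Pb.E (p.E g)).L := (Kp4Pb.ok (p.E g)).1
    have hmx := h.mxE g hg
    refine ⟨hLg, ?_, ?_⟩
    · intro x hx
      have := hp (p.E g) (k4a_mx_mono hX hmx hθp hp1) x hx.1 hx.2
      refine this.trans ?_
      have h2 : ζ * (Kp4Pb.E (p.E g)).L ≤ ζ * 1 := mul_le_mul_of_nonneg_left hLg hζ.le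
      rw [mul_one] at h2
      exact h2
    · refine kp4_excl1 (p.E g) _ ζ fun B hBr => ?_
      have := he θ hθ hθe (p.E g) hmx B hBr
      have h2 : ζ * (Kp4Pb.E (p.E g)).L ≤ ζ * 1 := mul_le_mul_of_nonneg_left hLg hζ.le
      have h3 : (kp4Fr v S η).kst * B.r - ζ * (Kp4Pb.E (p.E g)).L ≤ B.h := this
      linarith

/-- **P4.3 (1) for ALL nearly maximizing problems of the Base** (asked by helper233 for Sec 9) -/
theorem kp4_prof_all (hX : (kp4Fr v S η).Hub) (hB : (kp4Fr v S η).Bad) (ζ : ℝ) (hζ : 0 < ζ) :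
    ∃ δ : ℝ, 0 < δ ∧ ∀ (F : KbEx v) (f : ℝ → ℝ → ℝ) (d' : ℝ), d' ≤ (kp4Fr v S η).dst + δ → F.Cap d' S η f →
      ((kp4Fr v S η).kst - δ) * F.L ≤ F.Hor f → ∀ r ∈ Set.Icc (0 : ℝ) F.L, |f r 0 - f 0 0 - (kp4Fr v S η).dst * r| ≤ ζ * F.L := by
  obtain ⟨δ, h0, h1, key⟩ := k4a_profile_eps hX hB hζ
  refine ⟨δ, h0, fun F f d' hd hc hH r hr => ?_⟩
  refine key (kp4OfCap F d' f hc) ⟨k4a_inC_mono (kp4_ofCap_inC F d' f hc) hd h1, ?_⟩ r hr.1 hr.2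
  rw [kp4_H_eq]
  exact hH

/-- the problems of a fitted path are nearly maximizing, in the language of the Base -/
theorem kp4_path_hor (p : K4aPath (kp4Fr v S η)) {r : ℕ → ℝ} {c θ : ℝ} (h : p.Fit r c θ) (g : ℕ) (hg : g ≤ p.n) :
    ((kp4Fr v S η).kst - θ) * (Kp4Pb.E (p.E g)).L ≤ (Kp4Pb.E (p.E g)).Hor (Kp4Pb.f (p.E g)) := by
  have h1 := (h.mxE g hg).2
  have h2 : (kp4Fr v S η).H (p.E g) = (Kp4Pb.E (p.E g)).Hor (Kp4Pb.f (p.E g)) := kp4_H_eq (p.E g)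
  rw [h2] at h1
  exact h1

/-- maximizing problems of length one -/
theorem kp4_mx_one_ex (hX : (kp4Fr v S η).Hub) (hB : (kp4Fr v S η).Bad) (δ : ℝ) (hδ : 0 < δ) (h1 : (kp4Fr v S η).dst + δ < 1) :
    ∃ E : Kp4Pb v S η, (kp4Fr v S η).Mx δ E ∧ E.E.L = 1 ∧ True := by
  obtain ⟨E, hE⟩ := k4a_mx_ex hX hB hδ h1
  obtain ⟨X₁, a1, a2, _⟩ := kp4_mx_one E hE
  exact ⟨X₁, a2, a1, trivial⟩

/-- **version 1** -/
theorem kp4_crit_one (hv : v = KbVer.one) (hX : (kp4Fr v S η).Hub) (hB : (kp4Fr v S η).Bad) :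
    KpCrit v S η ⟨(kp4Fr v S η).dst, (kp4Fr v S η).kst, 0, S⟩ := by
  have hv2 : ¬ v = KbVer.two := by
    rw [hv]
    decide
  intro ζ hζ
  obtain ⟨θ₀, h0, h1, h2, key⟩ := kp4_common hX hB ζ hζ
  refine ⟨θ₀, h0, h2, ?_⟩
  intro G tg hg
  obtain ⟨p, rfl, pL, _, pF⟩ := kp4_stage_one hX hB (k4a_neg_notLam hX hB (c := -1) (by norm_num)) (kp4_grid hg) (θ := θ₀ / 4) (by positivity) (by linarith)
    (fun _ => True) (kp4_mx_one_ex hX hB)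
  obtain ⟨k1, k2⟩ := key p tg (-1) (θ₀ / 4) (by positivity) (by linarith) pF pL
  refine ⟨kp4Path p pF.ok, (kp4Fr v S η).dst + θ₀ / 4, pL, by show _ + θ₀ / 4 ≤ _ + ζ; linarith, rfl, kp4_path_ok p pF, ?_, ?_⟩
  · intro g hg'
    obtain ⟨_, _, a, b⟩ := k1 g hg'
    exact ⟨a.trans (by linarith), b, fun h => absurd h hv2⟩
  · intro g hg' _
    obtain ⟨_, b, c⟩ := k2 g hg'
    exact ⟨b, c, fun h => absurd h hv2⟩

/-- **version 2, finite optimised narrowness** -/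
theorem kp4_crit_fin (hX : (kp4Fr KbVer.two S η).Hub) (hB : (kp4Fr KbVer.two S η).Bad) (hL : (kp4Fr KbVer.two S η).Lam.Nonempty) :
    KpCrit KbVer.two S η ⟨(kp4Fr KbVer.two S η).dst, (kp4Fr KbVer.two S η).kst, (kp4Fr KbVer.two S η).ell, S⟩ := by
  intro ζ hζ
  set Fr := kp4Fr KbVer.two S η with hFr
  set ℓ := Fr.ell with hℓ
  set ζ₁ : ℝ := ζ / 17 with hζ₁
  have hζ₁0 : 0 < ζ₁ := by positivity
  have hc : ℓ - ζ₁ ∉ Fr.Lam := k4a_ell_sub hX hB hζ₁0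
  obtain ⟨δ0, hδ0, hLam⟩ := k4a_ell_add hX hL hζ₁0
  obtain ⟨θ', δx, hθ', hδx, hδx1, hex⟩ := k4a_excl_nar hX (c := ℓ - ζ₁) (c1 := ℓ + 16 * ζ₁) (δ0 := δ0) (η := 1 / 2) hc hδ0 (by norm_num) (by norm_num)
  obtain ⟨θ₀, h0, h1, h2, key⟩ := kp4_common hX hB ζ hζ
  set δ : ℝ := min (min θ₀ δ0) (min δx (θ' / 8)) with hδ
  have hδpos : 0 < δ := lt_min (lt_min h0 hδ0) (lt_min hδx (by positivity))
  have d1 : δ ≤ θ₀ := (min_le_left _ _).trans (min_le_left _ _)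
  have d2 : δ ≤ δ0 := (min_le_left _ _).trans (min_le_right _ _)
  have d3 : δ ≤ δx := (min_le_right _ _).trans (min_le_left _ _)
  have d4 : δ ≤ θ' / 8 := (min_le_right _ _).trans (min_le_right _ _)
  refine ⟨δ, hδpos, d1.trans h2, ?_⟩
  intro G tg hg
  have d1' : δ / 4 ≤ θ₀ := by linarith
  have d2' : δ / 4 ≤ δ0 := by linarith
  have d3' : δ / 4 ≤ δx := by linarith
  obtain ⟨p, rfl, pL, pN, pF⟩ := kp4_stage_one hX hB hc (kp4_grid hg) (θ := δ / 4) (by positivity) (by linarith) (fun E => Fr.NarLe δ0 (ℓ + ζ₁) E) (by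
    intro δ' hδ' hδ'1
    obtain ⟨E, e1, e2⟩ := hLam δ' hδ' hδ'1
    obtain ⟨X₁, a1, a2, a3⟩ := kp4_mx_one E e1
    exact ⟨X₁, a2, a1, a3 _ _ e2⟩)
  obtain ⟨k1, k2⟩ := key p tg (ℓ - ζ₁) (δ / 4) (by positivity) d1' pF pL
  have pL' : Fr.len (p.E 0) = 1 := pL
  refine ⟨kp4Path p pF.ok, Fr.dst + δ / 4, pL, by show _ + δ / 4 ≤ _ + ζ; linarith, rfl, kp4_path_ok p pF, ?_, ?_⟩
  · intro g hg'
    obtain ⟨c0, c1, a, b⟩ := k1 g hg'
    refine ⟨a.trans (d1'.trans h2), b, fun _ => ?_⟩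
    obtain ⟨n1, n2⟩ := k4a_path_nar hX pF d2' pN hg'
    rw [pL'] at n2
    rw [kp4_path_cnar, kp4_path_cr, abs_le]
    show -ζ ≤ p.cnar g - ℓ * p.cdep g ∧ p.cnar g - ℓ * p.cdep g ≤ ζ
    have hz : ζ = 17 * ζ₁ := by rw [hζ₁]; ring
    constructor <;> nlinarith
  · intro g hg' hlen
    obtain ⟨l1, b, c⟩ := k2 g hg'
    refine ⟨b, c, fun _ => ?_⟩
    have hlen' : 1 / 8 ≤ (Kp4Pb.E (p.E g)).L := hlen
    have hN : Fr.NarLe δ0 (ℓ + 16 * ζ₁) (p.E g) := by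
      intro T hT hcT
      have := kp4_narle_rem hX pF d2' pN g hg' T hT hcT
      rw [pL'] at this
      have e : Fr.len (p.E g) = (Kp4Pb.E (p.E g)).L := rfl
      rw [e] at this ⊢
      nlinarith
    have hmx : Fr.Mx δx (p.E g) := k4a_mx_mono hX (pF.mxE g hg') d3' hδx1
    refine kp4_excl2 (p.E g) _ _ _ _ fun B hBr hBh => ?_
    have h3 := hex (p.E g) hmx hN B (by
      show B.r ≤ (1 - 1 / 2) * (Kp4Pb.E (p.E g)).L
      linarith) (by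
      show B.h ≤ Fr.kst * B.r + θ' * (Kp4Pb.E (p.E g)).L
      have : θ' / 8 ≤ θ' * (Kp4Pb.E (p.E g)).L := by nlinarith
      have hBh' : B.h ≤ Fr.kst * B.r + δ := hBh
      linarith)
    have h4 : B.nr + (ℓ - ζ₁) * ((Kp4Pb.E (p.E g)).L - B.r) ≤ (ℓ + 16 * ζ₁) * (Kp4Pb.E (p.E g)).L := h3
    have h5 : B.nr = B.l := by
      unfold Kp4At.nr
      rw [if_pos rfl]
    rw [h5] at h4
    have hz : ζ = 17 * ζ₁ := by rw [hζ₁]; ring
    have hr0 := B.r0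
    show B.l ≤ ℓ * B.r + ζ
    nlinarith

/-- the smallest gap of a grid -/
theorem kp4_grid_gap {G : ℕ} {tg : ℕ → ℝ} (h : KpGrid G tg) : ∃ m : ℝ, 0 < m ∧ m ≤ tg 0 ∧ ∀ g < G, m ≤ tg (g + 1) - tg g := by
  obtain ⟨h0, h1, _⟩ := h
  clear * - h0 h1
  induction G with
  | zero => exact ⟨tg 0, h0, le_rfl, fun g hg => absurd hg (by omega)⟩
  | succ G ih =>
    obtain ⟨m, m0, m1, m2⟩ := ih fun g hg => h1 g (by omega)
    have hG := h1 G (by omega)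
    refine ⟨min m (tg (G + 1) - tg G), lt_min m0 (by linarith), (min_le_left _ _).trans m1, fun g hg => ?_⟩
    rcases Nat.lt_succ_iff_lt_or_eq.1 hg with h | h
    · exact (min_le_left _ _).trans (m2 g h)
    · subst h
      exact min_le_right _ _

/-- on a path fitted with `c = 2 |Λ| / m` (`m` = smallest gap of the grid, tolerance `≤ m / 4`) every step has narrowness `≥ Λ` -/
theorem kp4_step_nar (p : K4aPath (kp4Fr KbVer.two S η)) {tg : ℕ → ℝ} {θ : ℝ} (m Λ : ℝ) (pF : p.Fit tg (2 * |Λ| / m) θ) (m0 : 0 < m)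
    (m1 : m ≤ tg 0) (m2 : ∀ g < p.n, m ≤ tg (g + 1) - tg g) (t2 : θ ≤ m / 4) (hd : ∀ g ≤ p.n, |p.cdep g - tg g| ≤ θ) (g : ℕ) (hg' : g ≤ p.n) :
    Λ ≤ Kp4At.l (p.A g) := by
  have hc0 : 0 ≤ 2 * |Λ| / m := by positivity
  have a := hd g hg'
  have hdep : m / 2 ≤ Kp4At.r (p.A g) := by
    rcases Nat.eq_zero_or_pos g with h | h
    · subst h
      have e : p.cdep 0 = Kp4At.r (p.A 0) := by
        unfold K4aPath.cdep
        simp
        rfl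
      rw [e] at a
      have := (abs_le.1 a).1
      linarith
    · obtain ⟨g', rfl⟩ : ∃ g', g = g' + 1 := ⟨g - 1, by omega⟩
      have a' := hd g' (by omega)
      have e : p.cdep (g' + 1) = p.cdep g' + Kp4At.r (p.A (g' + 1)) := by
        unfold K4aPath.cdep
        rw [Finset.sum_range_succ _ (g' + 1)]
        rfl
      rw [e] at a
      have := (abs_le.1 a).1
      have := (abs_le.1 a').2
      have := m2 g' (by omega)
      linarith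
  have hn : 2 * |Λ| / m * Kp4At.r (p.A g) < Kp4At.nr (p.A g) := pF.nar_gt g hg'
  have h5 : Kp4At.nr (p.A g) = Kp4At.l (p.A g) := by
    unfold Kp4At.nr
    rw [if_pos rfl]
  rw [h5] at hn
  have h6 : |Λ| ≤ 2 * |Λ| / m * Kp4At.r (p.A g) := by
    have : 2 * |Λ| / m * (m / 2) = |Λ| := by
      field_simp
    calc |Λ| = 2 * |Λ| / m * (m / 2) := this.symm
      _ ≤ 2 * |Λ| / m * Kp4At.r (p.A g) := mul_le_mul_of_nonneg_left hdep hc0
  linarith [le_abs_self Λ]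

/-- **version 2, unbounded optimised narrowness** -/
theorem kp4_crit_inf (hX : (kp4Fr KbVer.two S η).Hub) (hB : (kp4Fr KbVer.two S η).Bad) (hL : ¬ (kp4Fr KbVer.two S η).Lam.Nonempty) :
    KpCritInf KbVer.two S η (kp4Fr KbVer.two S η).dst (kp4Fr KbVer.two S η).kst := by
  intro ζ Λ hζ G tg hg
  set Fr := kp4Fr KbVer.two S η with hFr
  obtain ⟨m, m0, m1, m2⟩ := kp4_grid_gap hg
  obtain ⟨θ₀, h0, h1, h2, key⟩ := kp4_common hX hB ζ hζ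
  set θ : ℝ := min θ₀ (m / 4) with hθ
  have hθ0 : 0 < θ := lt_min h0 (by positivity)
  have t1 : θ ≤ θ₀ := min_le_left _ _
  have t2 : θ ≤ m / 4 := min_le_right _ _
  set c : ℝ := 2 * |Λ| / m with hc
  have hc0 : 0 ≤ c := by positivity
  have hcL : c ∉ Fr.Lam := fun h => hL ⟨c, h⟩
  obtain ⟨p, rfl, pL, _, pF⟩ := kp4_stage_one hX hB hcL (kp4_grid hg) hθ0 (by linarith) (fun _ => True) (kp4_mx_one_ex hX hB)
  obtain ⟨k1, k2⟩ := key p tg c θ hθ0 t1 pF pL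
  refine ⟨kp4Path p pF.ok, Fr.dst + θ, pL, by linarith [t1.trans h2], rfl, kp4_path_ok p pF, ?_, ?_⟩
  · intro g hg'
    obtain ⟨_, _, a, b⟩ := k1 g hg'
    refine ⟨a.trans (t1.trans h2), b.trans (t1.trans h2), ?_⟩
    exact kp4_step_nar p m Λ pF m0 m1 m2 t2 (fun g hg => (k1 g hg).2.2.1) g hg'
  · intro g hg' _
    obtain ⟨_, b, c⟩ := k2 g hg'
    exact ⟨b, c⟩

/-- **THE EXIT OF SEC 4.1** (statement: helper269, `S4/Crit.lean`) -/
theorem kp4_hub_rates : KpHubRates := by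
  intro v S η d₀ hS hη hbad
  have hX := kp4_hub v S η hS hη
  have hB : (kp4Fr v S η).Bad := kp4_bad hbad
  have hd0 := k4a_dst_nonneg hX
  have hd1 := k4a_dst_lt_one hX hB
  have hk0 := k4a_kst_pos hX hB
  have hk1 := k4a_kst_le_one hX hB
  cases v with
  | one =>
    exact ⟨⟨_, _, 0, S⟩, ⟨hd0, hd1, hk0, hk1, le_rfl, hS⟩, rfl, fun _ => rfl, Or.inl (kp4_crit_one rfl hX hB)⟩
  | two =>
    by_cases hL : (kp4Fr KbVer.two S η).Lam.Nonempty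
    · exact ⟨⟨_, _, (kp4Fr KbVer.two S η).ell, S⟩, ⟨hd0, hd1, hk0, hk1, k4a_ell_nonneg hX hB hL, hS⟩, rfl, fun h => absurd h (by decide),
        Or.inl (kp4_crit_fin hX hB hL)⟩
    · exact ⟨⟨_, _, 0, S⟩, ⟨hd0, hd1, hk0, hk1, le_rfl, hS⟩, rfl, fun _ => rfl, Or.inr ⟨rfl, kp4_crit_inf hX hB hL⟩⟩

end

end Claimed.Agent.R252
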