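import Claimed.Agent.R252.S4.Rate

/-!
# ROW 252 (S0492), unit S4 (helper128), file Prof: MAXIMIZING PROBLEMS AND THE LINEAR PROFILE  (04-critical-paths.tex l.100-215, P4.3 (1)).      No `sorry` in this file.

* `Kp4Mx v S η δ E f` : `E ∈ C(d_* + δ)` and `H(E) ≥ (k - δ) L`.   A maximizing sequence of the paper = problems in `Kp4Mx δ_i`, `δ_i → 0`; 'for `i` large' = `∃ δ > 0, ∀ E ∈ Mx δ`.  No outer sequence, no
  rescaling to length one, no compactness of profiles: the proof below is quantitative.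
* `kp4_zero_out`   a coarsening whose end point has a slope cap `d'' < d_*` back to some `a < r₀` has horizon `0`.
* `kp4_secant`     lower bound for all secants.
* `kp4_linear`     **P4.3 (1)** for all increments:  `|f b - f a - d_* (b - a)| ≤ τ L`.
-/

set_option autoImplicit false

namespace Claimed.Agent.R252

open MeasureTheory Filter Topology
open Claimed.Agent.R255 (uf)
open scoped ENNReal BigOperators

noncomputable section

variable {v : KbVer}

/-- `δ`-maximizing problems -/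
structure Kp4Mx (v : KbVer) (S η δ : ℝ) (E : KbEx v) (f : ℝ → ℝ → ℝ) : Prop where
  cap : E.Cap (kp4Dst v S η + δ) S η f
  hor : (kp4Kst v S η - δ) * E.L ≤ E.Hor f

theorem kp4_mx_mono {S η δ δ' : ℝ} {E : KbEx v} {f : ℝ → ℝ → ℝ} (h : Kp4Mx v S η δ E f) (hd : δ ≤ δ') (h1 : kp4Dst v S η + δ' < 1) :
    Kp4Mx v S η δ' E f where
  cap := kp4_cap_mono E h.cap (by linarith) h1
  hor := le_trans (mul_le_mul_of_nonneg_right (by linarith) h.cap.ok.1.le) h.hor

theorem kp4_Dst_lt_one' (v : KbVer) (S η : ℝ) : kp4Dst v S η < 1 := by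
  rcases (kp4Dset v S η).eq_empty_or_nonempty with h | ⟨d, h⟩
  · unfold kp4Dst
    rw [h, Real.sInf_empty]
    exact one_pos
  · exact kp4_Dst_lt_one v S η d h

/-- maximizing problems exist for every `δ` -/
theorem kp4_mx_exists (v : KbVer) (S η d₁ : ℝ) (h : KbBad v S η d₁) (δ : ℝ) (hδ : 0 < δ) (h1 : kp4Dst v S η + δ < 1) :
    ∃ (E : KbEx v) (f : ℝ → ℝ → ℝ), Kp4Mx v S η δ E f := by
  have hb : KbBad v S η (kp4Dst v S η + δ) := kp4_bad_above h (by linarith) h1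
  have hne : (kp4Kset v S η (kp4Dst v S η + δ)).Nonempty := by
    obtain ⟨E, f, hc, _⟩ := hb
    exact ⟨_, E, f, hc, rfl⟩
  have hk : kp4Kst v S η ≤ kp4K v S η (kp4Dst v S η + δ) := kp4_Kst_le v S η (by linarith) h1
  obtain ⟨_, ⟨E, f, hc, rfl⟩, hx⟩ := exists_lt_of_lt_csSup hne (show kp4Kst v S η - δ < sSup _ by
    unfold kp4K at hk
    linarith)
  exact ⟨E, f, hc, ((lt_div_iff₀ hc.ok.1).1 hx).le⟩

/-- a coarsening whose end point has a slope cap below `d_*` on a terminal interval has horizon zero -/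
theorem kp4_zero_out (E : KbEx v) {d S η : ℝ} {f : ℝ → ℝ → ℝ} (hS : 0 < S) (hη : 0 < η) (hc : E.Cap d S η f) (a r₀ d'' : ℝ) (ha : 0 ≤ a)
    (har : a < r₀) (hr : r₀ ≤ E.L) (hd : d'' < kp4Dst v S η) (hs : ∀ x ∈ Set.Icc a r₀, f r₀ 0 - f x 0 ≤ d'' * (r₀ - x)) :
    (E.coarsen r₀).Hor f = 0 := by
  have hd1 : d'' < 1 := hd.trans (kp4_Dst_lt_one' v S η)
  have hr0 : 0 < r₀ := lt_of_le_of_lt ha har
  have hprof := kb_profile E hc.ok f hc.hom
  -- the global cap
  set ρ : ℝ := (r₀ - a) / r₀ with hρ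
  have hρ0 : 0 < ρ := div_pos (by linarith) hr0
  have hρ1 : ρ ≤ 1 := (div_le_one hr0).2 (by linarith)
  have hρr : ρ * r₀ = r₀ - a := div_mul_cancel₀ _ hr0.ne'
  set dg : ℝ := 1 - (1 - d'') * ρ with hdg
  have hdg1 : dg < 1 := by
    have : 0 < (1 - d'') * ρ := mul_pos (by linarith) hρ0
    linarith
  have hdg2 : d'' ≤ dg := by
    have : (1 - d'') * ρ ≤ (1 - d'') * 1 := mul_le_mul_of_nonneg_left hρ1 (by linarith)
    linarith
  have hG : (E.coarsen r₀).Cap dg S η f := by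
    refine kp4_coarsen_cap E hc r₀ hr0 hr hdg1 ?_
    intro x hx
    rcases le_or_gt a x with hax | hxa
    · exact (hs x ⟨hax, hx.2⟩).trans (mul_le_mul_of_nonneg_right hdg2 (by linarith [hx.2]))
    · have h1 := hs a ⟨le_rfl, har.le⟩
      have h2 := hprof.r_lip x a 0 hx.1 hxa.le (har.le.trans hr) le_rfl
      have h3 : (1 - d'') * ρ * (r₀ - x) ≤ (1 - d'') * ρ * r₀ :=
        mul_le_mul_of_nonneg_left (by linarith [hx.1]) (mul_nonneg (by linarith) hρ0.le)
      have h4 : (1 - d'') * ρ * r₀ = (1 - d'') * (r₀ - a) := by rw [mul_assoc, hρr]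
      have h5 : dg * (r₀ - x) = (r₀ - x) - (1 - d'') * ρ * (r₀ - x) := by
        rw [hdg]
        ring
      rw [h5]
      nlinarith
  by_contra hne
  have hpos : 0 < (E.coarsen r₀).Hor f := lt_of_le_of_ne (kp4_hor_nonneg _ f) (Ne.symm hne)
  obtain ⟨C, c, hC, hc0, key⟩ := kp4_term_ext v dg S η hdg1 hS hη
  set G := E.coarsen r₀ with hGdef
  have hGL : G.L = r₀ := rfl
  set e : ℝ := min (min (G.Hor f) (c * r₀)) ((r₀ - a) / C) / 2 with he
  have hm : 0 < min (min (G.Hor f) (c * r₀)) ((r₀ - a) / C) :=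
    lt_min (lt_min hpos (by positivity)) (div_pos (by linarith) hC)
  have he0 : 0 < e := by positivity
  have he1 : e < G.Hor f := lt_of_lt_of_le (by linarith) ((min_le_left _ ((r₀ - a) / C)).trans (min_le_left _ (c * r₀)))
  have he2 : e < c * G.L := by
    rw [hGL]
    exact lt_of_lt_of_le (by linarith) ((min_le_left _ ((r₀ - a) / C)).trans (min_le_right (G.Hor f) _))
  have he3 : e < (r₀ - a) / C := lt_of_lt_of_le (by linarith) (min_le_right (min (G.Hor f) (c * r₀)) _)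
  have he3' : C * e < r₀ - a := by
    rw [lt_div_iff₀ hC] at he3
    linarith
  obtain ⟨Y, h, hY, hle, hlt⟩ := kp4_hor_near G hG.ok f hG.hom (e / 4) (by positivity)
  obtain ⟨Y', L', hL0, hL1, hL2, hY'⟩ := key G dg f le_rfl hG Y h (by linarith) hY e he0 (by linarith) he2
  rw [hGL] at hL1 hL2
  obtain ⟨keep, S', e', f', h1, h2, h3, h4, h5, h6, _, _, h9⟩ := kb_norm G hG.ok f hG.hom Y' L' (h - e) hL0.le hL1 hY'
  have hcomp := kp4_comp G hG.ok f f' hG.hom _ L' (h - e) e' hL0.le hL1 h1 h2 h3 h4 h5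
  set F := G.norm (G.restr Y' keep S') L' with hF
  have hFL : F.L = r₀ - L' := rfl
  have hFg : F.Cap dg S η f' := h9 dg S η hG
  have hFc : F.Cap d'' S η f' :=
    { ok := h3
      hom := h4
      d_lt := hd1
      endp := by
        intro s hs'
        rw [hFL] at hs' ⊢
        rw [hGL] at h5 h6
        have a1 := h6 s hs'.1 hs'.2
        have a2 := hs (L' + s) ⟨by linarith [hs'.1], by linarith [hs'.2]⟩
        have a3 : d'' * (r₀ - (L' + s)) = d'' * (r₀ - L' - s) := by ring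
        linarith
      ang := hFg.ang }
  have hbad : KbBad v S η d'' := ⟨F, f', hFc, by linarith⟩
  have := csInf_le (kp4_Dset_bdd v S η) hbad
  unfold kp4Dst at hd
  linarith

/-- the profile is continuous on `[0, L]` -/
theorem kp4_prof_cont (L : ℝ) (j : ℕ) (f : ℝ → ℝ → ℝ) (h : KbProfile L j f) (c : ℝ) :
    ContinuousOn (fun x => f x 0 - c * x) (Set.Icc 0 L) := by
  have h1 : LipschitzOnWith 1 (fun x => f x 0) (Set.Icc 0 L) := by
    refine LipschitzOnWith.of_dist_le_mul fun x hx y hy => ?_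
    rw [Real.dist_eq, Real.dist_eq, NNReal.coe_one, one_mul]
    rcases le_total x y with hxy | hxy
    · have a1 := h.r_mono x y 0 hx.1 hxy hy.2 le_rfl
      have a2 := h.r_lip x y 0 hx.1 hxy hy.2 le_rfl
      rw [abs_sub_comm, abs_of_nonneg (by linarith), abs_sub_comm, abs_of_nonneg (by linarith)]
      exact a2
    · have a1 := h.r_mono y x 0 hy.1 hxy hx.2 le_rfl
      have a2 := h.r_lip y x 0 hy.1 hxy hx.2 le_rfl
      rw [abs_of_nonneg (by linarith), abs_of_nonneg (by linarith)]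
      exact a2
  exact h1.continuousOn.sub (continuous_const.mul continuous_id).continuousOn

/-- secants, for one slope `d'' < d_*` -/
theorem kp4_secant_aux (E : KbEx v) {d S η : ℝ} {f : ℝ → ℝ → ℝ} (hS : 0 < S) (hη : 0 < η) (hc : E.Cap d S η f) (θ : ℝ) (hθ0 : 0 ≤ θ)
    (hθ : ∀ r₀, 0 < r₀ → r₀ ≤ E.L → (E.coarsen r₀).Hor f = 0 → r₀ ≤ θ) (a b : ℝ) (ha : 0 ≤ a) (hab : a ≤ b) (hb : b ≤ E.L)
    (d'' : ℝ) (hd0 : 0 ≤ d'') (hd : d'' < kp4Dst v S η) : d'' * (b - a) - θ ≤ f b 0 - f a 0 := by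
  have hd1 : d'' < 1 := hd.trans (kp4_Dst_lt_one' v S η)
  have hprof := kb_profile E hc.ok f hc.hom
  by_contra hcon
  rw [not_le] at hcon
  have hcont : ContinuousOn (fun x => f x 0 - d'' * x) (Set.Icc a b) :=
    (kp4_prof_cont E.L v.j f hprof d'').mono (Set.Icc_subset_Icc ha hb)
  obtain ⟨r₀, hr₀, hmin⟩ := isCompact_Icc.exists_isMinOn (Set.nonempty_Icc.2 hab) hcont
  have hminb : f r₀ 0 - d'' * r₀ ≤ f b 0 - d'' * b := hmin ⟨hab, le_rfl⟩
  have hmono := hprof.r_mono a r₀ 0 ha hr₀.1 (hr₀.2.trans hb) le_rfl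
  have h1 : d'' * (r₀ - a) ≤ 1 * (r₀ - a) := mul_le_mul_of_nonneg_right hd1.le (by linarith [hr₀.1])
  have h2 : θ < r₀ - a := by nlinarith
  have hz := kp4_zero_out E hS hη hc a r₀ d'' ha (by linarith) (hr₀.2.trans hb) hd (by
    intro x hx
    have : f r₀ 0 - d'' * r₀ ≤ f x 0 - d'' * x := hmin ⟨hx.1, hx.2.trans hr₀.2⟩
    nlinarith)
  have := hθ r₀ (by linarith) (hr₀.2.trans hb) hz
  linarith

/-- secants: no secant is much below `d_*` -/
theorem kp4_secant (E : KbEx v) {d S η : ℝ} {f : ℝ → ℝ → ℝ} (hS : 0 < S) (hη : 0 < η) (hc : E.Cap d S η f) (θ : ℝ) (hθ0 : 0 ≤ θ)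
    (hθ : ∀ r₀, 0 < r₀ → r₀ ≤ E.L → (E.coarsen r₀).Hor f = 0 → r₀ ≤ θ) (a b : ℝ) (ha : 0 ≤ a) (hab : a ≤ b) (hb : b ≤ E.L) :
    kp4Dst v S η * (b - a) - θ ≤ f b 0 - f a 0 := by
  have hprof := kb_profile E hc.ok f hc.hom
  have hmono := hprof.r_mono a b 0 ha hab hb le_rfl
  have hD := kp4_Dst_nonneg v S η
  by_contra hcon
  rw [not_le] at hcon
  set X : ℝ := f b 0 - f a 0 + θ with hX
  have hX0 : 0 ≤ X := by linarith
  have hlt : X < kp4Dst v S η * (b - a) := by linarith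
  have hba : 0 < b - a := by
    by_contra h0
    rw [not_lt] at h0
    have : kp4Dst v S η * (b - a) ≤ 0 := mul_nonpos_of_nonneg_of_nonpos hD h0
    linarith
  have hq : X / (b - a) < kp4Dst v S η := (div_lt_iff₀ hba).2 hlt
  have hq0 : 0 ≤ X / (b - a) := div_nonneg hX0 hba.le
  set d'' : ℝ := (X / (b - a) + kp4Dst v S η) / 2 with hd''
  have key := kp4_secant_aux E hS hη hc θ hθ0 hθ a b ha hab hb d'' (by linarith) (by linarith)
  have h3 : X / (b - a) < d'' := by linarith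
  have h4 : X < d'' * (b - a) := (div_lt_iff₀ hba).1 h3
  linarith

/-- in a maximizing problem the coarsenings of horizon zero are short -/
theorem kp4_mx_short {S η δ ε : ℝ} {E : KbEx v} {f : ℝ → ℝ → ℝ} (h : Kp4Mx v S η δ E f) (hk : 0 < kp4Kst v S η) (hε : 0 ≤ ε) (hδ : 0 ≤ δ)
    (hK : kp4K v S η (kp4Dst v S η + δ) ≤ kp4Kst v S η + ε) (r₀ : ℝ) (hr : 0 < r₀) (hrL : r₀ ≤ E.L) (hz : (E.coarsen r₀).Hor f = 0) :
    r₀ ≤ (ε + δ) / kp4Kst v S η * E.L := by
  have h1 := kp4_comp_coarse E h.cap r₀ hr hrL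
  rw [hz, zero_add] at h1
  have h2 : kp4K v S η (kp4Dst v S η + δ) * (E.L - r₀) ≤ (kp4Kst v S η + ε) * (E.L - r₀) :=
    mul_le_mul_of_nonneg_right hK (by linarith)
  have h3 := h.hor
  have h4 : kp4Kst v S η * r₀ ≤ (ε + δ) * E.L := by nlinarith
  rw [div_mul_eq_mul_div, le_div_iff₀ hk]
  linarith

/-- **P4.3 (1): the relative profile of a maximizing problem is linear with slope `d_*`** (all increments) -/
theorem kp4_linear (v : KbVer) (S η d₁ : ℝ) (hS : 0 < S) (hη : 0 < η) (hbad : KbBad v S η d₁) (τ : ℝ) (hτ : 0 < τ) :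
    ∃ δ : ℝ, 0 < δ ∧ kp4Dst v S η + δ < 1 ∧ ∀ (E : KbEx v) (f : ℝ → ℝ → ℝ), Kp4Mx v S η δ E f →
      ∀ a b : ℝ, 0 ≤ a → a ≤ b → b ≤ E.L → |f b 0 - f a 0 - kp4Dst v S η * (b - a)| ≤ τ * E.L := by
  have hk := kp4_Kst_pos v S η d₁ hS hη hbad
  have hk1 := kp4_Kst_le_one v S η d₁ hbad
  set k := kp4Kst v S η with hkdef
  obtain ⟨δ₀, hδ₀, hδ₁, hK⟩ := kp4_K_near v S η d₁ hbad (τ * k / 8) (by positivity)
  set δ : ℝ := min δ₀ (τ * k / 8) with hδ
  have hδ0 : 0 < δ := lt_min hδ₀ (by positivity)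
  have hδa : δ ≤ δ₀ := min_le_left _ _
  have hδb : δ ≤ τ * k / 8 := min_le_right _ _
  refine ⟨δ, hδ0, by linarith, ?_⟩
  intro E f hmx a b ha hab hb
  have hL := hmx.cap.ok.1
  set θ : ℝ := (τ * k / 8 + δ) / k * E.L with hθ
  have hθ0 : 0 ≤ θ := by positivity
  have hθle : θ ≤ τ / 4 * E.L := by
    rw [hθ]
    refine mul_le_mul_of_nonneg_right ?_ hL.le
    rw [div_le_iff₀ hk]
    nlinarith
  have hshort : ∀ r₀, 0 < r₀ → r₀ ≤ E.L → (E.coarsen r₀).Hor f = 0 → r₀ ≤ θ := fun r₀ h0 h1 h2 =>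
    kp4_mx_short hmx hk (by positivity) hδ0.le (hK _ (by linarith)).le r₀ h0 h1 h2
  have s1 := kp4_secant E hS hη hmx.cap θ hθ0 hshort a b ha hab hb
  have s2 := kp4_secant E hS hη hmx.cap θ hθ0 hshort 0 a le_rfl ha (hab.trans hb)
  have s3 := kp4_secant E hS hη hmx.cap θ hθ0 hshort b E.L (ha.trans hab) hb le_rfl
  have s4 := hmx.cap.endp 0 ⟨le_rfl, hL.le⟩
  have hδL : δ * E.L ≤ τ / 8 * E.L := by
    refine mul_le_mul_of_nonneg_right ?_ hL.le
    nlinarith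
  rw [abs_le]
  constructor
  · nlinarith
  · nlinarith

end

end Claimed.Agent.R252
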