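import Claimed.Agent.R252.S4.Exit
import Claimed.Agent.R252.S9.Exit

/-!
# ROW 252 (S0492), unit S4 (helper128), file Exit9: THE RATES OF THE FRAME ARE THE RATES OF THE BASE; `K9HubRates` (statement: helper233, `S9/Exit.lean`) IS PROVED.      No `sorry` in this file.

* `kp4_dst_eq`, `kp4_kd_eq`, `kp4_kst_eq` : `(kp4Fr v S η).dst = kp4Dst v S η`, `.kd d = kp4K v S η d`, `.kst = kp4Kst v S η`;      `kp4_mx_base` : `Mx δ X → Kp4Mx v S η δ X.E X.f`.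
* `kp4_crit_inf9 : K9CritInf S η` when `Lam = ∅`;      `kp4_hub_rates9 : K9HubRates`.
-/

set_option autoImplicit false

namespace Claimed.Agent.R252

open MeasureTheory Filter Topology
open Claimed.Agent.R255 (uf)
open scoped ENNReal BigOperators

noncomputable section

variable {v : KbVer} {S η : ℝ}

theorem kp4_dst_eq (v : KbVer) (S η : ℝ) : (kp4Fr v S η).dst = kp4Dst v S η := by
  unfold K4aFr.dst kp4Dst kp4Dset
  congr 1
  ext d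
  constructor
  · rintro ⟨X, h1, h2⟩
    have e : (kp4Fr v S η).H X = (Kp4Pb.E X).Hor (Kp4Pb.f X) := kp4_H_eq X
    rw [e] at h2
    exact ⟨Kp4Pb.E X, Kp4Pb.f X, kp4_inC_cap X h1, h2⟩
  · rintro ⟨E, f, hc, hp⟩
    refine ⟨kp4OfCap E d f hc, kp4_ofCap_inC E d f hc, ?_⟩
    have e : (kp4Fr v S η).H (kp4OfCap E d f hc) = E.Hor f := kp4_H_eq _
    rw [e]
    exact hp

theorem kp4_kd_eq (v : KbVer) (S η d : ℝ) : (kp4Fr v S η).kd d = kp4K v S η d := by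
  unfold K4aFr.kd kp4K kp4Kset
  congr 1
  ext x
  constructor
  · rintro ⟨X, h1, rfl⟩
    have e : (kp4Fr v S η).H X = (Kp4Pb.E X).Hor (Kp4Pb.f X) := kp4_H_eq X
    rw [e]
    exact ⟨Kp4Pb.E X, Kp4Pb.f X, kp4_inC_cap X h1, rfl⟩
  · rintro ⟨E, f, hc, rfl⟩
    refine ⟨kp4OfCap E d f hc, kp4_ofCap_inC E d f hc, ?_⟩
    have e : (kp4Fr v S η).H (kp4OfCap E d f hc) = E.Hor f := kp4_H_eq _
    rw [e]
    rfl

theorem kp4_kst_eq (v : KbVer) (S η : ℝ) : (kp4Fr v S η).kst = kp4Kst v S η := by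
  unfold K4aFr.kst kp4Kst
  congr 1
  ext x
  constructor
  · rintro ⟨d, h1, h2, rfl⟩
    rw [kp4_dst_eq] at h1
    exact ⟨d, ⟨h1, h2⟩, (kp4_kd_eq v S η d).symm⟩
  · rintro ⟨d, ⟨h1, h2⟩, rfl⟩
    exact ⟨d, by rw [kp4_dst_eq]; exact h1, h2, (kp4_kd_eq v S η d).symm⟩

theorem kp4_mx_base {δ : ℝ} (X : Kp4Pb v S η) (h : (kp4Fr v S η).Mx δ X) : Kp4Mx v S η δ X.E X.f := by
  obtain ⟨h1, h2⟩ := h
  rw [kp4_dst_eq] at h1
  have e : (kp4Fr v S η).H X = X.E.Hor X.f := kp4_H_eq X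
  rw [kp4_kst_eq, e] at h2
  exact ⟨kp4_inC_cap X h1, h2⟩

/-- **the entry of Sec 9** -/
theorem kp4_crit_inf9 (hX : (kp4Fr KbVer.two S η).Hub) (hB : (kp4Fr KbVer.two S η).Bad) (hL : ¬ (kp4Fr KbVer.two S η).Lam.Nonempty) :
    K9CritInf S η := by
  intro ζ Λ hζ hζ1 G tg hg
  rw [← kp4_dst_eq] at hζ1
  rw [← kp4_dst_eq, ← kp4_kst_eq]
  set Fr := kp4Fr KbVer.two S η with hFr
  obtain ⟨m, m0, m1, m2⟩ := kp4_grid_gap hg
  obtain ⟨θ₀, h0, h1, h2, key⟩ := kp4_common hX hB ζ hζ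
  set θ : ℝ := min θ₀ (m / 4) with hθ
  have hθ0 : 0 < θ := lt_min h0 (by positivity)
  have t1 : θ ≤ θ₀ := min_le_left _ _
  have t2 : θ ≤ m / 4 := min_le_right _ _
  set c : ℝ := 2 * |Λ| / m with hc
  have hc0 : 0 ≤ c := by positivity
  have hcL : c ∉ Fr.Lam := fun h => hL ⟨c, h⟩
  obtain ⟨p, rfl, pL, _, pF⟩ := kp4_stage_one hX hB hcL (kp4_grid hg) hθ0 (by linarith) (fun _ => True) (kp4_mx_one_ex hX hB)
  obtain ⟨k1, k2⟩ := key p tg c θ hθ0 t1 pF pL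
  refine ⟨kp4Path p pF.ok, Fr.dst + θ, pL, by linarith [t1.trans h2], rfl, kp4_path_ok p pF, ?_, ?_, ?_⟩
  · intro g hg'
    obtain ⟨_, _, a, b⟩ := k1 g hg'
    refine ⟨a.trans (t1.trans h2), b.trans (t1.trans h2), ?_⟩
    exact kp4_step_nar p m Λ pF m0 m1 m2 t2 (fun g hg => (k1 g hg).2.2.1) g hg'
  · intro g hg' s hs
    exact kp4_node_prof p pF.ok g hg' s hs.1 hs.2
  · intro g hg'
    exact kp4_mx_base (p.E g) (k4a_mx_mono hX (pF.mxE g hg') (t1.trans h2) hζ1)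

/-- **the exit of Sec 4.1 in the form used by Sec 9 and `Top`** (statement: helper233) -/
theorem kp4_hub_rates9 : K9HubRates := by
  intro v S η d₀ hS hη hbad
  have hX := kp4_hub v S η hS hη
  have hB : (kp4Fr v S η).Bad := kp4_bad hbad
  have hd0 := k4a_dst_nonneg hX
  have hd1 := k4a_dst_lt_one hX hB
  have hk0 := k4a_kst_pos hX hB
  have hk1 := k4a_kst_le_one hX hB
  cases v with
  | one =>
    exact ⟨⟨_, _, 0, S⟩, ⟨hd0, hd1, hk0, hk1, le_rfl, hS⟩, rfl, fun _ => rfl, Or.inl (kp4_crit_one rfl hX hB)⟩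
  | two =>
    by_cases hL : (kp4Fr KbVer.two S η).Lam.Nonempty
    · exact ⟨⟨_, _, (kp4Fr KbVer.two S η).ell, S⟩, ⟨hd0, hd1, hk0, hk1, k4a_ell_nonneg hX hB hL, hS⟩, rfl, fun h => absurd h (by decide),
        Or.inl (kp4_crit_fin hX hB hL)⟩
    · exact ⟨⟨_, _, 0, S⟩, ⟨hd0, hd1, hk0, hk1, le_rfl, hS⟩, rfl, fun _ => rfl, Or.inr ⟨rfl, kp4_crit_inf9 hX hB hL⟩⟩

end

end Claimed.Agent.R252
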