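import Claimed.Agent.R252.S4A.Excl

/-!
# ROW 252 (S0492), unit S4 (helper128), file ExitA: ADDITIONS TO THE ABSTRACT CALCULUS OF SEC 4.1 (frame `K4aFr` of helper23).      No `sorry` in this file (it cites the contract statements of `S4A`).

Needed for `KpCrit` (helper269, `S4/Crit.lean`), where the exclusions are asked in EVERY remaining problem of a path:
* `kp4_path_len`    `len (E g) = len (E 0) - ∑_{i<g} dep (A i)`;
* `kp4_comp_part`   a true terminal system of `E g` lifts through the first `g` nodes to a true terminal system of `E 0`; horizons and narrowness add;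
* `kp4_narle_rem`   the narrowness bound `NarLe` of the base problem passes to the remaining problems of a fitted path.
-/

set_option autoImplicit false

namespace Claimed.Agent.R252

universe u₁ u₂

variable {X : K4aFr.{u₁, u₂}}

theorem kp4_path_len (hX : X.Hub) (p : K4aPath X) (hp : p.Ok) (g : ℕ) (hg : g ≤ p.n) :
    X.len (p.E g) = X.len (p.E 0) - ∑ i ∈ Finset.range g, X.dep (p.A i) := by
  induction g with
  | zero => simp
  | succ g ih =>
    have h1 := hX.rem_len _ _ _ (hp.rem g (by omega))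
    rw [h1, ih (by omega), Finset.sum_range_succ]
    ring

theorem kp4_comp_part (hX : X.Hub) (p : K4aPath X) (hp : p.Ok) (g : ℕ) (hg : g ≤ p.n) (T : X.At (p.E g)) (hT : X.TT T) :
    ∃ T' : X.At (p.E 0), X.TT T' ∧ X.hor T' = (∑ i ∈ Finset.range g, X.hor (p.A i)) + X.hor T ∧
      X.nar T' = (∑ i ∈ Finset.range g, X.nar (p.A i)) + X.nar T := by
  induction g with
  | zero => exact ⟨T, hT, by simp, by simp⟩
  | succ g ih =>
    have hR := hp.rem g (by omega)
    obtain ⟨T1, hL⟩ := hX.lift_ex _ _ _ hR T hT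
    obtain ⟨T', a1, a2, a3⟩ := ih (by omega) T1 (hX.lift_tt _ _ _ _ _ hL hT)
    refine ⟨T', a1, ?_, ?_⟩
    · rw [a2, hX.lift_hor _ _ _ _ _ hL, Finset.sum_range_succ]
      ring
    · rw [a3, hX.lift_nar _ _ _ _ _ hL, Finset.sum_range_succ]
      ring

/-- sums over the first `g` nodes of a fitted path -/
theorem kp4_fit_sums {p : K4aPath X} {r : ℕ → ℝ} {c θ : ℝ} (h : p.Fit r c θ) (g : ℕ) (hg : g ≤ p.n) :
    (∑ i ∈ Finset.range g, X.hor (p.A i)) ≤ (X.kst + θ) * ∑ i ∈ Finset.range g, X.dep (p.A i) ∧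
    c * (∑ i ∈ Finset.range g, X.dep (p.A i)) ≤ ∑ i ∈ Finset.range g, X.nar (p.A i) ∧
    0 ≤ ∑ i ∈ Finset.range g, X.dep (p.A i) := by
  refine ⟨?_, ?_, ?_⟩
  · rw [Finset.mul_sum]
    exact Finset.sum_le_sum fun i hi => h.hor_le i (by have := Finset.mem_range.1 hi; omega)
  · rw [Finset.mul_sum]
    exact Finset.sum_le_sum fun i hi => (h.nar_gt i (by have := Finset.mem_range.1 hi; omega)).le
  · exact Finset.sum_nonneg fun i hi => (h.dpos i (by have := Finset.mem_range.1 hi; omega)).le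

/-- **the narrowness bound passes to the remaining problems**:  `nar T ≤ c1 L - c (L - len (E g))` for every nearly optimal true terminal system `T` of `E g` -/
theorem kp4_narle_rem (hX : X.Hub) {p : K4aPath X} {r : ℕ → ℝ} {c c1 θ δ0 : ℝ} (h : p.Fit r c θ) (hθ : θ ≤ δ0) (hN : X.NarLe δ0 c1 (p.E 0))
    (g : ℕ) (hg : g ≤ p.n) (T : X.At (p.E g)) (hT : X.TT T) (hc : X.hor T ≤ (X.kst + δ0) * X.len (p.E g)) :
    X.nar T ≤ c1 * X.len (p.E 0) - c * (X.len (p.E 0) - X.len (p.E g)) := by
  obtain ⟨T', a1, a2, a3⟩ := kp4_comp_part hX p h.ok g hg T hT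
  obtain ⟨s1, s2, s3⟩ := kp4_fit_sums h g hg
  have hlen := kp4_path_len hX p h.ok g hg
  set D := ∑ i ∈ Finset.range g, X.dep (p.A i) with hD
  have h1 : X.hor T' ≤ (X.kst + δ0) * X.len (p.E 0) := by
    rw [a2]
    have : (X.kst + θ) * D ≤ (X.kst + δ0) * D := mul_le_mul_of_nonneg_right (by linarith) s3
    rw [hlen] at hc
    nlinarith
  have h2 := hN T' a1 h1
  rw [a3] at h2
  rw [hlen]
  nlinarith

end Claimed.Agent.R252
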