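import Claimed.Agent.R252.S4.Prof
import Claimed.Agent.R252.S4A.Frame

/-!
# ROW 252 (S0492), unit S4 (helper128), file Inst: THE INSTANCE OF THE FRAME OF SEC 4.1 OVER THE BASE.      No `sorry` in this file.

`kp4Fr v S η : K4aFr` is the frame of helper23 (`S4A/Frame.lean`) with
* `Pb`  = `Kp4Pb v S η` : an exact problem `E : KbEx v` with a joint profile `f`, `E.Ok`, `E.Hom f` and the angular cap `Kp4Ang E S η f`;
* `At X` = `Kp4At X`    : a known atlas `Y` (`IsAtlas Y r h`) with a narrowness exponent `l`;      `Tru` = true + saturated + known by its own depth;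
* `Rem`, `Co`, `CoAt`   remember the explicit operations `KbEx.norm`, `KbEx.restr`, `KbEx.coarsen` of the Base.
`kp4_hub : (kp4Fr v S η).Hub` is PROVED here from `Base/Hub2`, `kp4_term_ext` (L3.5) and `kp4_narrow_ex`.   `kp4_H_eq`, `kp4_bad` connect `X.H`, `X.Bad` with `KbEx.Hor`, `KbBad`.
-/

set_option autoImplicit false

namespace Claimed.Agent.R252

open MeasureTheory Filter Topology
open Claimed.Agent.R255 (uf)
open scoped ENNReal BigOperators

noncomputable section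

variable {v : KbVer}

/-- the angular cap (2.8) -/
def Kp4Ang (E : KbEx v) (S η : ℝ) (f : ℝ → ℝ → ℝ) : Prop := ∀ u : ℝ, 0 < u → u ≤ η * E.L → f E.L 0 + S * u ≤ f E.L u

/-! ## Request to Base/Hub2 -/

/-- homogenisation of the Jacobians: a sub-collection of whole charts with a common narrowness exponent (02 l.868 'Statements about a common value of this exponent use a homogeneous subfamily') -/
theorem kp4_narrow_ex (E : KbEx v) (hE : E.Ok) (Y : E.Sys) (r h : ℝ) (hY : E.IsSys Y r h) :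
    ∃ (keep : ∀ k, Set (Y k).C) (l : ℝ), E.IsSys (E.restr Y keep fun _ _ => Set.univ) r h ∧ E.Narrow (E.restr Y keep fun _ _ => Set.univ) l :=
  kb_narrow_ex E hE Y r h hY

/-! ## Restrictions -/

theorem kp4_restr_narrow (E : KbEx v) (Y : E.Sys) (keep : ∀ k, Set (Y k).C) (S' : ∀ k, (Y k).C → Set ((E.P k).Lam × ℝ)) (l : ℝ)
    (h : E.Narrow Y l) : E.Narrow (E.restr Y keep S') l := by
  intro τ hτ
  filter_upwards [h τ hτ] with k hk c
  exact hk c.1

theorem kp4_restr_true (E : KbEx v) (Y : E.Sys) (keep : ∀ k, Set (Y k).C) (e : ℝ) (h : E.IsTrue Y e) :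
    E.IsTrue (E.restr Y keep fun _ _ => Set.univ) e := by
  intro τ hτ
  filter_upwards [h τ hτ] with k hk c
  have := hk c.1
  simpa [KbEx.restr, KbSys.restr, KbSys.mC, KbSys.q] using this

theorem kp4_restr_sat (E : KbEx v) (Y : E.Sys) (keep : ∀ k, Set (Y k).C) (e : ℝ) (h : E.IsSat Y e) :
    E.IsSat (E.restr Y keep fun _ _ => Set.univ) e := by
  intro τ hτ
  filter_upwards [h τ hτ] with k hk c
  have := hk c.1
  simpa [KbEx.restr, KbSys.restr, KbSys.mC, KbSys.q, KbSys.nuC] using this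

/-- saturation survives every restriction which keeps the true floors -/
theorem kp4_restr_sat_of_true (E : KbEx v) (Y : E.Sys) (keep : ∀ k, Set (Y k).C) (S' : ∀ k, (Y k).C → Set ((E.P k).Lam × ℝ)) (e : ℝ)
    (hs : E.IsSat Y e) (ht : E.IsTrue (E.restr Y keep S') e) : E.IsSat (E.restr Y keep S') e := by
  intro τ hτ
  filter_upwards [hs (τ / 2) (by positivity), ht (τ / 2) (by positivity)] with k hk hk' c
  obtain ⟨_, s2, s3⟩ := hk c.1
  have t1 := hk' c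
  have hK : 0 < E.R.N k ^ (τ / 2) := kb_L3_rpow_pos E.R k _
  have hKK : E.R.N k ^ (τ / 2) ≤ E.R.N k ^ τ := (kb_L3_rpow_le_iff E.R k).2 (by linarith)
  have hn : 0 < E.R.N k ^ (-e) := kb_L3_rpow_pos E.R k _
  have hJ : 0 ≤ ((Y k).ch c.1).J := abs_nonneg _
  have hq : 0 ≤ (Y k).q := by
    unfold KbSys.q kbQ
    positivity
  refine ⟨?_, ?_, ?_⟩
  · calc ENNReal.ofReal (Y k).q * (Y k).nuC c.1
        ≤ ENNReal.ofReal (Y k).q * ENNReal.ofReal (E.R.N k ^ (τ / 2) * E.R.N k ^ (-e) * ((Y k).ch c.1).J) := by gcongr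
      _ = ENNReal.ofReal (E.R.N k ^ (τ / 2)) * ENNReal.ofReal (E.R.N k ^ (-e) * ((Y k).ch c.1).J * (Y k).q) := by
          rw [← ENNReal.ofReal_mul hq, ← ENNReal.ofReal_mul hK.le]
          congr 1
          ring
      _ ≤ ENNReal.ofReal (E.R.N k ^ (τ / 2)) * (ENNReal.ofReal (E.R.N k ^ (τ / 2)) * (E.restr Y keep S' k).mC c) := by
          gcongr
          exact t1
      _ = ENNReal.ofReal (E.R.N k ^ τ) * (E.restr Y keep S' k).mC c := by
          rw [← mul_assoc, ← ENNReal.ofReal_mul hK.le, kb_rpow_half]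
  · refine s2.trans (ENNReal.ofReal_le_ofReal ?_)
    have : 0 ≤ E.R.N k ^ (-e) * ((Y k).ch c.1).J := mul_nonneg hn.le hJ
    calc E.R.N k ^ (τ / 2) * E.R.N k ^ (-e) * ((Y k).ch c.1).J = E.R.N k ^ (τ / 2) * (E.R.N k ^ (-e) * ((Y k).ch c.1).J) := by ring
      _ ≤ E.R.N k ^ τ * (E.R.N k ^ (-e) * ((Y k).ch c.1).J) := mul_le_mul_of_nonneg_right hKK this
      _ = E.R.N k ^ τ * E.R.N k ^ (-e) * ((Y k).ch c.1).J := by ring
  · refine s3.trans ?_
    gcongr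
    exact le_rfl

theorem kp4_restr_known (E : KbEx v) (Y : E.Sys) (keep : ∀ k, Set (Y k).C) (S' : ∀ k, (Y k).C → Set ((E.P k).Lam × ℝ)) (s : ℝ)
    (h : E.IsKnown Y s) : E.IsKnown (E.restr Y keep S') s := by
  classical
  intro τ hτ
  filter_upwards [h τ hτ] with k hk
  obtain ⟨Lst, h1, h2, h3⟩ := hk
  refine ⟨fun γ d o => (Lst γ d o).subtype (· ∈ keep k), ?_, ?_, ?_⟩
  · intro γ d o
    refine le_trans ?_ (h1 γ d o)
    have : ((Lst γ d o).subtype (· ∈ keep k)).card ≤ (Lst γ d o).card := by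
      rw [Finset.card_subtype]
      exact Finset.card_filter_le _ _
    exact_mod_cast this
  · intro γ d c
    have e1 : {o | c ∈ (Lst γ d o).subtype (· ∈ keep k)} = {o | c.1 ∈ Lst γ d o} := by
      ext o
      exact Finset.mem_subtype
    exact e1 ▸ h2 γ d c.1
  · intro c x hx
    exact Finset.mem_subtype.2 (h3 c.1 x hx.1)

/-! ## The instance -/

/-- homogeneous exact problems with the angular cap -/
structure Kp4Pb (v : KbVer) (S η : ℝ) : Type 1 where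
  E : KbEx v
  f : ℝ → ℝ → ℝ
  ok : E.Ok
  hom : E.Hom f
  ang : Kp4Ang E S η f

variable {S η : ℝ}

/-- homogenised known atlases -/
structure Kp4At (X : Kp4Pb v S η) : Type 1 where
  Y : X.E.Sys
  r : ℝ
  h : ℝ
  l : ℝ
  r0 : 0 ≤ r
  rL : r ≤ X.E.L
  atlas : X.E.IsAtlas Y r h
  nar : X.E.Narrow Y l

/-- prepared true system: true, saturated, known by its own depth -/
def Kp4At.Tru {X : Kp4Pb v S η} (A : Kp4At X) : Prop :=
  X.E.IsTrue A.Y (X.f A.r 0) ∧ X.E.IsSat A.Y (X.f A.r 0) ∧ X.E.IsKnown A.Y A.r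

/-- the narrowness used by the frame: `0` in version 1 -/
def Kp4At.nr {X : Kp4Pb v S η} (A : Kp4At X) : ℝ := if v = KbVer.two then A.l else 0

/-- `F` is the normalisation of `X` through a prepared restriction of the atlas `A` -/
def Kp4Rem (X : Kp4Pb v S η) (A : Kp4At X) (F : Kp4Pb v S η) : Prop :=
  ∃ (keep : ∀ k, Set (A.Y k).C) (S' : ∀ k, (A.Y k).C → Set ((X.E.P k).Lam × ℝ)) (e : ℝ),
    F.E = X.E.norm (X.E.restr A.Y keep S') A.r ∧ A.r < X.E.L ∧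
    X.E.IsAtlas (X.E.restr A.Y keep S') A.r A.h ∧
    X.E.ChExp (X.E.restr A.Y keep S') (fun k c => ((X.E.restr A.Y keep S' k).ch c).J / ((X.E.restr A.Y keep S' k).nuC c).toReal) e ∧
    F.f (X.E.L - A.r) 0 = X.f X.E.L 0 + e ∧
    (∀ s : ℝ, 0 ≤ s → s ≤ X.E.L - A.r → X.f (A.r + s) 0 + e ≤ F.f s 0) ∧
    (X.E.IsKnown A.Y A.r → ∀ s : ℝ, 0 ≤ s → s ≤ X.E.L - A.r → F.f s 0 = X.f (A.r + s) 0 + e) ∧
    (X.E.IsTrue A.Y (X.f A.r 0) → X.E.IsTrue (X.E.restr A.Y keep S') (X.f A.r 0))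

/-- the numerical content of a lift (the explicit lifts of the nodes of a path are built in `S4/Chain.lean`) -/
def Kp4Lift (X : Kp4Pb v S η) (A : Kp4At X) (F : Kp4Pb v S η) (B : Kp4At F) (A' : Kp4At X) : Prop :=
  A'.r = A.r + B.r ∧ A'.h = A.h + B.h ∧ A'.l = A.l + B.l ∧ A'.Tru ∧ F.E.L = X.E.L - A.r

/-- coarsening -/
def Kp4Co (X : Kp4Pb v S η) (r : ℝ) (G : Kp4Pb v S η) : Prop := G.E = X.E.coarsen r ∧ G.f = X.f ∧ 0 < r ∧ r ≤ X.E.L

/-- the same system, read in the coarsening and in the problem -/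
def Kp4CoAt (X G : Kp4Pb v S η) (B : Kp4At G) (A : Kp4At X) : Prop :=
  (∃ hP : G.E.P = X.E.P, A.Y = cast (by rw [KbEx.Sys, KbEx.Sys, hP]) B.Y) ∧ A.r = B.r ∧ A.h = B.h ∧ A.l = B.l ∧ A.Tru

/-- **the frame of Sec 4.1 over the Base** -/
def kp4Fr (v : KbVer) (S η : ℝ) : K4aFr.{1, 1} where
  Pb := Kp4Pb v S η
  len := fun X => X.E.L
  prof := fun X r => X.f r 0
  At := Kp4At
  dep := fun A => A.r
  hor := fun A => A.h
  nar := fun A => A.nr
  Tru := fun A => A.Tru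
  Rem := Kp4Rem
  Lift := Kp4Lift
  Co := Kp4Co
  CoAt := Kp4CoAt

/-! ## Preparation of systems -/

theorem kp4_det_le (D : Matrix (Fin 2) (Fin 2) ℝ) : |D.det| ≤ kbMn D ^ 2 := by
  rw [Matrix.det_fin_two]
  unfold kbMn
  simp only [Fin.sum_univ_two]
  have h1 := abs_sub (D 0 0 * D 1 1) (D 0 1 * D 1 0)
  rw [abs_mul, abs_mul] at h1
  have a0 := abs_nonneg (D 0 0)
  have a1 := abs_nonneg (D 0 1)
  have a2 := abs_nonneg (D 1 0)
  have a3 := abs_nonneg (D 1 1)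
  nlinarith [mul_nonneg a0 a3, mul_nonneg a1 a2, mul_nonneg a0 a1, mul_nonneg a0 a2, mul_nonneg a1 a3, mul_nonneg a2 a3,
    mul_nonneg a0 a0, mul_nonneg a1 a1, mul_nonneg a2 a2, mul_nonneg a3 a3]

/-- narrowness is nonnegative in version 2 : `‖D_c‖ ≤ q K₀` -/
theorem kp4_narrow_nonneg (E : KbEx KbVer.two) (Y : E.Sys) (r h l : ℝ) (hY : E.IsSys Y r h) (hl : E.Narrow Y l) : 0 ≤ l := by
  have := Claimed.Agent.R255.uf_neBot
  by_contra hneg
  rw [not_le] at hneg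
  have hτ : 0 < -l / 4 := by linarith
  have ev : ∀ᶠ k in uf, False := by
    filter_upwards [hY.2.1 (-l / 4) hτ, hl (-l / 4) hτ] with k hk hn
    obtain ⟨hgeo, hbig⟩ := hk
    -- a chart exists
    have hne : Nonempty (Y k).C := by
      by_contra hemp
      rw [not_nonempty_iff] at hemp
      have hz : (Y k).mass = 0 := by
        unfold KbSys.mass
        exact Finset.sum_of_isEmpty _
      unfold KbSys.Big at hbig
      rw [hz, mul_zero] at hbig
      exact absurd hbig (by norm_num)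
    obtain ⟨c⟩ := hne
    obtain ⟨lo, hi⟩ := hn c
    have hN := kb_L3_rpow_pos E.R k
    have hpos : 0 < (Y k).q ^ 2 / ((Y k).ch c).J := lt_of_lt_of_le (hN _) lo
    have hJ0 : 0 ≤ ((Y k).ch c).J := abs_nonneg _
    have hJ : 0 < ((Y k).ch c).J := by
      rcases hJ0.lt_or_eq with h1 | h1
      · exact h1
      · rw [← h1, div_zero] at hpos
        exact absurd hpos (lt_irrefl _)
    have hdet : ((Y k).ch c).J ≤ kbMn ((Y k).ch c).D ^ 2 := kp4_det_le _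
    have hsz := hgeo.size c
    have hMn : 0 ≤ kbMn ((Y k).ch c).D := by
      unfold kbMn
      exact Finset.sum_nonneg fun i _ => Finset.sum_nonneg fun j _ => abs_nonneg _
    have h2 : ((Y k).ch c).J ≤ ((Y k).q * E.R.N k ^ (-l / 4)) ^ 2 := hdet.trans (pow_le_pow_left₀ hMn hsz 2)
    have h3 : (Y k).q ^ 2 ≤ E.R.N k ^ (- -l + -l / 4) * ((Y k).ch c).J := (div_le_iff₀ hJ).1 hi
    have hq : 0 < (Y k).q ^ 2 := by
      have : 0 < (Y k).q := by
        unfold KbSys.q kbQ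
        positivity
      positivity
    have h4 : (Y k).q ^ 2 ≤ E.R.N k ^ (- -l + -l / 4) * (((Y k).q * E.R.N k ^ (-l / 4)) ^ 2) :=
      h3.trans (mul_le_mul_of_nonneg_left h2 (hN _).le)
    have h5 : E.R.N k ^ (- -l + -l / 4) * (((Y k).q * E.R.N k ^ (-l / 4)) ^ 2) = (Y k).q ^ 2 * E.R.N k ^ (l / 4) := by
      have : E.R.N k ^ (l / 4) = E.R.N k ^ (- -l + -l / 4) * (E.R.N k ^ (-l / 4) * E.R.N k ^ (-l / 4)) := by
        rw [← Real.rpow_add (kb_L3_pos E.R k), ← Real.rpow_add (kb_L3_pos E.R k)]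
        congr 1
        ring
      rw [this]
      ring
    rw [h5] at h4
    have h6 : (1 : ℝ) ≤ E.R.N k ^ (l / 4) := by
      by_contra h7
      rw [not_le] at h7
      nlinarith
    have h7 : E.R.N k ^ (0 : ℝ) ≤ E.R.N k ^ (l / 4) := by simpa using h6
    have := (kb_L3_rpow_le_iff E.R k).1 h7
    linarith
  exact ev.exists.choose_spec

/-- every known atlas can be homogenised -/
theorem kp4_atlas_at (X : Kp4Pb v S η) (Y : X.E.Sys) (r h : ℝ) (hr : 0 ≤ r) (hrL : r ≤ X.E.L) (hY : X.E.IsAtlas Y r h) :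
    ∃ A : Kp4At X, A.r = r ∧ A.h = h := by
  obtain ⟨keep, l, h1, h2⟩ := kp4_narrow_ex X.E X.ok Y r h hY.1
  exact ⟨⟨_, r, h, l, hr, hrL, ⟨h1, kp4_restr_known X.E Y keep _ _ hY.2⟩, h2⟩, rfl, rfl⟩

/-- every true system can be prepared -/
theorem kp4_prepare (X : Kp4Pb v S η) (Y : X.E.Sys) (r h : ℝ) (hr : 0 < r) (hrL : r ≤ X.E.L) (hY : X.E.IsTrueSys X.f Y r h) :
    ∃ A : Kp4At X, A.r = r ∧ A.h = h ∧ A.Tru := by
  obtain ⟨keep, S', h1, h2, h3⟩ := kb_sat X.E X.ok X.f X.hom Y r h hr hrL hY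
  obtain ⟨keep2, l, h4, h5⟩ := kp4_narrow_ex X.E X.ok _ r h h1.1
  have h6 := kp4_restr_known X.E _ keep2 (fun _ _ => Set.univ) _ h3
  exact ⟨⟨_, r, h, l, hr.le, hrL, ⟨h4, kb_known_mono X.E X.ok _ r X.E.L hrL h6⟩, h5⟩, rfl, rfl,
    kp4_restr_true X.E _ keep2 _ h1.2, kp4_restr_sat X.E _ keep2 _ h2, h6⟩

/-- the same, keeping a narrowness exponent which is already there -/
theorem kp4_prepare_nar (X : Kp4Pb v S η) (Y : X.E.Sys) (r h l : ℝ) (hr : 0 < r) (hrL : r ≤ X.E.L) (hY : X.E.IsTrueSys X.f Y r h)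
    (hl : X.E.Narrow Y l) : ∃ A : Kp4At X, A.r = r ∧ A.h = h ∧ A.l = l ∧ A.Tru := by
  obtain ⟨keep, S', h1, h2, h3⟩ := kb_sat X.E X.ok X.f X.hom Y r h hr hrL hY
  exact ⟨⟨_, r, h, l, hr.le, hrL, ⟨h1.1, kb_known_mono X.E X.ok _ r X.E.L hrL h3⟩, kp4_restr_narrow X.E Y keep S' l hl⟩, rfl, rfl, rfl,
    h1.2, h2, h3⟩

theorem kp4_inC_cap (X : Kp4Pb v S η) {d : ℝ} (h : (kp4Fr v S η).InC d X) : X.E.Cap d S η X.f where
  ok := X.ok
  hom := X.hom
  d_lt := h.1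
  endp := fun r hr => h.2 r hr.1 hr.2
  ang := X.ang

/-! ## The hub -/

theorem kp4_rem_ex (X : Kp4Pb v S η) (A : Kp4At X) (d : ℝ) (hd : (kp4Fr v S η).InC d X) (hA : A.r < X.E.L) : ∃ F, Kp4Rem X A F := by
  obtain ⟨keep, S', e, f', h1, h2, h3, h4, h5, h6, h7, h8, h9⟩ := kb_norm X.E X.ok X.f X.hom A.Y A.r A.h A.r0 hA A.atlas
  exact ⟨⟨_, f', h3, h4, (h9 d S η (kp4_inC_cap X hd)).ang⟩, keep, S', e, rfl, hA, h1, h2, h5, h6, h7, h8⟩

theorem kp4_lift_ex (X : Kp4Pb v S η) (A : Kp4At X) (F : Kp4Pb v S η) (hR : Kp4Rem X A F) (B : Kp4At F) (hB : B.Tru) (hBr : B.r = F.E.L) :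
    ∃ A' : Kp4At X, Kp4Lift X A F B A' := by
  obtain ⟨FE, Ff, Fok, Fhom, Fang⟩ := F
  obtain ⟨keep, S', e, hF, hrL, h1, h2, h5, _, _, _⟩ := hR
  dsimp only at hF
  subst hF
  dsimp only at h5 hBr hB
  have hBr' : B.r = X.E.L - A.r := hBr
  have hs : 0 < B.r := by rw [hBr']; linarith
  have heq : Ff B.r 0 = X.f (A.r + B.r) 0 + e := by
    rw [hBr', h5]
    congr 2
    ring
  have key := kb_lift_true X.E X.ok X.f Ff X.hom _ A.r A.h e A.r0 hrL h1 h2 Fhom B.r hs hBr'.le heq B.Y B.h ⟨B.atlas.1, hB.1⟩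
  have hn := kb_narrow_add X.E _ A.r B.Y A.l B.l (kp4_restr_narrow X.E A.Y keep S' A.l A.nar) B.nar
  obtain ⟨A', a1, a2, a3, a4⟩ := kp4_prepare_nar X _ (A.r + B.r) (A.h + B.h) (A.l + B.l) (by linarith [A.r0]) (by rw [hBr']; linarith) key hn
  exact ⟨A', a1, a2, a3, a4, rfl⟩

theorem kp4_coat_ex (X : Kp4Pb v S η) (r : ℝ) (G : Kp4Pb v S η) (hG : Kp4Co X r G) (B : Kp4At G) (hB : B.Tru) (hBr : B.r = G.E.L) :
    ∃ A : Kp4At X, Kp4CoAt X G B A := by
  obtain ⟨GE, Gf, Gok, Ghom, Gang⟩ := G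
  obtain ⟨hE, hf, hr0, hrL⟩ := hG
  dsimp only at hE hf
  subst hE
  subst hf
  have hBr' : B.r = r := hBr
  have hk : X.E.IsKnown B.Y B.r := hB.2.2
  exact ⟨⟨B.Y, B.r, B.h, B.l, B.r0, by rw [hBr']; exact hrL, ⟨B.atlas.1, kb_known_mono X.E X.ok B.Y B.r X.E.L (by rw [hBr']; exact hrL) hk⟩, B.nar⟩,
    ⟨rfl, rfl⟩, rfl, rfl, rfl, hB⟩

/-- **the hubs of Secs 2-3 hold in the instance** -/
theorem kp4_hub (v : KbVer) (S η : ℝ) (hS : 0 < S) (hη : 0 < η) : (kp4Fr v S η).Hub where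
  len_pos := fun X => X.ok.1
  prof_mono := fun X r r' h0 h1 h2 => (kb_profile X.E X.ok X.f X.hom).r_mono r r' 0 h0 h1 h2 le_rfl
  prof_lip := fun X r r' h0 h1 h2 => (kb_profile X.E X.ok X.f X.hom).r_lip r r' 0 h0 h1 h2 le_rfl
  dep_nonneg := fun _ A => A.r0
  dep_le := fun _ A => A.rL
  hor_nonneg := fun X A => kp4_cost_nonneg X.E A.Y A.r A.h A.atlas.1
  nar_nonneg := by
    intro X A
    show 0 ≤ A.nr
    unfold Kp4At.nr
    split_ifs with hv
    · subst hv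
      exact kp4_narrow_nonneg X.E A.Y A.r A.h A.l A.atlas.1 A.nar
    · exact le_rfl
  hbound := by
    intro X τ hτ
    obtain ⟨Y, hY⟩ := kb_horizon_le X.E X.ok X.f X.hom
    obtain ⟨A, a1, a2, a3⟩ := kp4_prepare X Y X.E.L X.E.L X.ok.1 le_rfl hY
    refine ⟨A, ⟨a3, a1⟩, ?_⟩
    show A.h ≤ X.E.L + τ
    rw [a2]
    linarith
  rem_ex := fun X A d hd hA => kp4_rem_ex X A d hd hA
  rem_len := by
    rintro X A F ⟨keep, S', e, hF, _⟩
    show F.E.L = X.E.L - A.r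
    rw [hF]
    rfl
  rem_prof := by
    rintro X A F ⟨keep, S', e, hF, _, _, _, h5, h6, _, _⟩ s hs hsL
    have hL : F.E.L = X.E.L - A.r := by
      rw [hF]
      rfl
    show F.f F.E.L 0 - F.f s 0 ≤ X.f X.E.L 0 - X.f (A.r + s) 0
    have hsL' : s ≤ F.E.L := hsL
    rw [hL] at hsL' ⊢
    have := h6 s hs hsL'
    linarith
  lift_ex := fun X A F hR B hB => kp4_lift_ex X A F hR B hB.1 hB.2
  lift_tt := by
    rintro X A F B A' ⟨a1, _, _, a4, a5⟩ hB
    refine ⟨a4, ?_⟩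
    show A'.r = X.E.L
    have hBr : B.r = F.E.L := hB.2
    rw [a1, hBr, a5]
    ring
  lift_hor := fun _ _ _ _ _ h => h.2.1
  lift_nar := by
    rintro X A F B A' ⟨_, _, a3, _, _⟩
    show A'.nr = A.nr + B.nr
    unfold Kp4At.nr
    split_ifs
    · exact a3
    · simp
  co_ex := by
    intro X r d hd h0 h1
    refine ⟨⟨X.E.coarsen r, X.f, kp4_coarsen_ok X.E X.ok r h0, kp4_coarsen_hom X.E X.f X.hom r (le_of_lt h1), ?_⟩, rfl, rfl, h0, le_of_lt h1⟩
    intro u hu hur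
    have h1' : r < X.E.L := h1
    have hur' : u ≤ η * r := hur
    exact kb_coarse X.E d S η X.f (kp4_inC_cap X hd) r u h0.le h1'.le hu (hur'.trans (mul_le_mul_of_nonneg_left h1'.le hη.le))
  co_len := by
    rintro X r G ⟨hE, _⟩
    show G.E.L = r
    rw [hE]
    rfl
  co_prof := by
    rintro X r G ⟨_, hf, _⟩ x _ _
    show G.f x 0 = X.f x 0
    rw [hf]
  coat_ex := fun X r G hG B hB => kp4_coat_ex X r G hG B hB.1 hB.2
  coat_tru := fun _ _ _ _ h => h.2.2.2.2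
  coat_dep := fun _ _ _ _ h => h.2.1
  coat_hor := fun _ _ _ _ h => h.2.2.1
  coat_nar := by
    rintro X G B A ⟨_, _, _, a3, _⟩
    show A.nr = B.nr
    unfold Kp4At.nr
    rw [a3]
  ext := by
    intro d0 hd0
    obtain ⟨C, c, hC, hc, key⟩ := kp4_term_ext v d0 S η hd0 hS hη
    refine ⟨C, c, hC, hc, ?_⟩
    intro X hX A hA e he0 he1 he2
    have hAr : A.r = X.E.L := hA.2
    have hT : X.E.IsTrueSys X.f A.Y X.E.L A.h := by
      have h1 := A.atlas.1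
      have h2 := hA.1.1
      rw [hAr] at h1 h2
      exact ⟨h1, h2⟩
    have he1' : e < A.h := he1
    obtain ⟨Y', L', l0, l1, l2, hY'⟩ := key X.E d0 X.f le_rfl (kp4_inC_cap X hX) A.Y A.h (by linarith) hT e he0 he1' he2
    obtain ⟨A', a1, a2⟩ := kp4_atlas_at X Y' L' (A.h - e) l0.le l1.le hY'
    refine ⟨A', a2, ?_, ?_, ?_⟩
    · show 0 < A'.r
      rw [a1]
      exact l0
    · show A'.r < X.E.L
      rw [a1]
      exact l1
    · show X.E.L - A'.r ≤ C * e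
      rw [a1]
      exact l2

/-! ## The horizon and bad problems -/

/-- the horizon of the frame is the horizon of the Base -/
theorem kp4_H_eq (X : Kp4Pb v S η) : (kp4Fr v S η).H X = X.E.Hor X.f := by
  unfold K4aFr.H KbEx.Hor
  congr 1
  ext h
  constructor
  · rintro ⟨A, hA, rfl⟩
    have hAr : A.r = X.E.L := hA.2
    have h1 := A.atlas.1
    have h2 := hA.1.1
    rw [hAr] at h1 h2
    exact ⟨kp4_cost_nonneg X.E A.Y _ A.h h1, A.Y, h1, h2⟩
  · rintro ⟨_, Y, hY⟩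
    obtain ⟨A, a1, a2, a3⟩ := kp4_prepare X Y X.E.L h X.ok.1 le_rfl hY
    exact ⟨A, ⟨a3, a1⟩, a2⟩

/-- a problem of the cap class as a problem of the frame -/
def kp4OfCap (E : KbEx v) (d : ℝ) (f : ℝ → ℝ → ℝ) (h : E.Cap d S η f) : Kp4Pb v S η := ⟨E, f, h.ok, h.hom, h.ang⟩

theorem kp4_ofCap_inC (E : KbEx v) (d : ℝ) (f : ℝ → ℝ → ℝ) (h : E.Cap d S η f) : (kp4Fr v S η).InC d (kp4OfCap E d f h) :=
  ⟨h.d_lt, fun r h0 h1 => h.endp r ⟨h0, h1⟩⟩

/-- bad problems of the Base are bad problems of the frame -/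
theorem kp4_bad {d : ℝ} (h : KbBad v S η d) : (kp4Fr v S η).Bad := by
  obtain ⟨E, f, hc, hp⟩ := h
  refine ⟨d, kp4OfCap E d f hc, kp4_ofCap_inC E d f hc, ?_⟩
  rw [kp4_H_eq]
  exact hp

end

end Claimed.Agent.R252
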