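import Claimed.Agent.R252.S4.ExitA
import Claimed.Agent.R252.S4.Inst
import Claimed.Agent.R252.S4.Crit

/-!
# ROW 252 (S0492), unit S4 (helper128), file ExitB: FROM THE PATHS OF THE FRAME TO THE PATHS OVER THE BASE.      No `sorry` in this file.

`kp4Path p hp : KpPath v` is the concrete path (format of helper269, `S4/Crit.lean`) of a path `p : K4aPath (kp4Fr v S η)` with `hp : p.Ok`:  `E g`, `f g` = the problems of `p`;
`Y g` = the PREPARED RESTRICTION of the atlas `p.A g` through which `p.E (g+1)` is the normalisation (chosen from `Kp4Rem`), `Y n` = the terminal system.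
`kp4_path_ok` : `(kp4Path p hp).Ok (d_* + θ) S η` for a fitted path.     `kp4_excl1`, `kp4_excl2`, `kp4_lin` : the three properties of `KpCrit` in a problem of the frame.
-/

set_option autoImplicit false

namespace Claimed.Agent.R252

open MeasureTheory Filter Topology
open Claimed.Agent.R255 (uf)
open scoped ENNReal BigOperators

noncomputable section

variable {v : KbVer} {S η : ℝ}

theorem kp4_rem_unfold {X : Kp4Pb v S η} {A : Kp4At X} {F : Kp4Pb v S η} (h : (kp4Fr v S η).Rem X A F) : Kp4Rem X A F := h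

/-- the labels kept at the node `g` -/
def kp4Keep (p : K4aPath (kp4Fr v S η)) (hp : p.Ok) (g : ℕ) (hg : g < p.n) : ∀ k, Set ((Kp4At.Y (p.A g)) k).C :=
  (kp4_rem_unfold (hp.rem g hg)).choose

/-- the selections kept at the node `g` -/
def kp4Sel (p : K4aPath (kp4Fr v S η)) (hp : p.Ok) (g : ℕ) (hg : g < p.n) :
    ∀ k, ((Kp4At.Y (p.A g)) k).C → Set (((Kp4Pb.E (p.E g)).P k).Lam × ℝ) :=
  (kp4_rem_unfold (hp.rem g hg)).choose_spec.choose

/-- the system of the node `g` -/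
def kp4Y (p : K4aPath (kp4Fr v S η)) (hp : p.Ok) (g : ℕ) : (Kp4Pb.E (p.E g)).Sys :=
  if hg : g < p.n then (Kp4Pb.E (p.E g)).restr (Kp4At.Y (p.A g)) (kp4Keep p hp g hg) (kp4Sel p hp g hg) else Kp4At.Y (p.A g)

/-- **the concrete path** -/
def kp4Path (p : K4aPath (kp4Fr v S η)) (hp : p.Ok) : KpPath v where
  G := p.n
  E := fun g => Kp4Pb.E (p.E g)
  f := fun g => Kp4Pb.f (p.E g)
  Y := kp4Y p hp
  r := fun g => Kp4At.r (p.A g)
  h := fun g => Kp4At.h (p.A g)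
  nar := fun g => Kp4At.l (p.A g)

theorem kp4_node_spec (p : K4aPath (kp4Fr v S η)) (hp : p.Ok) (g : ℕ) (hg : g < p.n) :
    Kp4Pb.E (p.E (g + 1)) = (Kp4Pb.E (p.E g)).norm (kp4Y p hp g) (Kp4At.r (p.A g)) ∧ Kp4At.r (p.A g) < (Kp4Pb.E (p.E g)).L ∧
    (Kp4Pb.E (p.E g)).IsAtlas (kp4Y p hp g) (Kp4At.r (p.A g)) (Kp4At.h (p.A g)) ∧
    ((Kp4Pb.E (p.E g)).IsTrue (Kp4At.Y (p.A g)) (Kp4Pb.f (p.E g) (Kp4At.r (p.A g)) 0) →
      (Kp4Pb.E (p.E g)).IsTrue (kp4Y p hp g) (Kp4Pb.f (p.E g) (Kp4At.r (p.A g)) 0)) := by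
  obtain ⟨e, h1, h2, h3, _, _, _, _, h8⟩ := (kp4_rem_unfold (hp.rem g hg)).choose_spec.choose_spec
  have hY : kp4Y p hp g = (Kp4Pb.E (p.E g)).restr (Kp4At.Y (p.A g)) (kp4Keep p hp g hg) (kp4Sel p hp g hg) := by
    unfold kp4Y
    rw [dif_pos hg]
  rw [hY]
  exact ⟨h1, h2, h3, h8⟩

theorem kp4_node_tru (p : K4aPath (kp4Fr v S η)) (hp : p.Ok) (g : ℕ) (hg : g ≤ p.n) : Kp4At.Tru (p.A g) := by
  rcases hg.lt_or_eq with h | h
  · exact (hp.coat g h).2.2.2.2
  · subst h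
    exact hp.last.1

/-- the system of every node is a prepared true system with a narrowness exponent -/
theorem kp4_node_prep (p : K4aPath (kp4Fr v S η)) (hp : p.Ok) (g : ℕ) (hg : g ≤ p.n) :
    (Kp4Pb.E (p.E g)).IsTrueSys (Kp4Pb.f (p.E g)) (kp4Y p hp g) (Kp4At.r (p.A g)) (Kp4At.h (p.A g)) ∧
    (Kp4Pb.E (p.E g)).IsSat (kp4Y p hp g) (Kp4Pb.f (p.E g) (Kp4At.r (p.A g)) 0) ∧
    (Kp4Pb.E (p.E g)).IsKnown (kp4Y p hp g) (Kp4At.r (p.A g)) ∧
    (Kp4Pb.E (p.E g)).Narrow (kp4Y p hp g) (Kp4At.l (p.A g)) := by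
  obtain ⟨t1, t2, t3⟩ := kp4_node_tru p hp g hg
  rcases hg.lt_or_eq with h | h
  · obtain ⟨_, _, a3, a4⟩ := kp4_node_spec p hp g h
    have hY : kp4Y p hp g = (Kp4Pb.E (p.E g)).restr (Kp4At.Y (p.A g)) (kp4Keep p hp g h) (kp4Sel p hp g h) := by
      unfold kp4Y
      rw [dif_pos h]
    have a5 := a4 t1
    rw [hY] at a3 a5 ⊢
    exact ⟨⟨a3.1, a5⟩, kp4_restr_sat_of_true _ _ _ _ _ t2 a5, kp4_restr_known _ _ _ _ _ t3, kp4_restr_narrow _ _ _ _ _ (Kp4At.nar (p.A g))⟩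
  · have hY : kp4Y p hp g = Kp4At.Y (p.A g) := by
      unfold kp4Y
      rw [dif_neg (by omega)]
    rw [hY]
    exact ⟨⟨(Kp4At.atlas (p.A g)).1, t1⟩, t2, t3, Kp4At.nar (p.A g)⟩

theorem kp4_path_cr (p : K4aPath (kp4Fr v S η)) (hp : p.Ok) (g : ℕ) : (kp4Path p hp).cr g = p.cdep g := rfl

theorem kp4_path_chz (p : K4aPath (kp4Fr v S η)) (hp : p.Ok) (g : ℕ) : (kp4Path p hp).chz g = p.chor g := rfl

theorem kp4_path_cnar (p : K4aPath (kp4Fr KbVer.two S η)) (hp : p.Ok) (g : ℕ) : (kp4Path p hp).cnar g = p.cnar g := by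
  unfold KpPath.cnar K4aPath.cnar
  refine Finset.sum_congr rfl fun i _ => ?_
  show Kp4At.l (p.A i) = Kp4At.nr (p.A i)
  unfold Kp4At.nr
  rw [if_pos rfl]

/-- a system of positive mass has a chart -/
theorem kp4_big_nonempty {P : KbPb v} (Y : KbSys P) (K : ℝ) (h : Y.Big K) : Nonempty Y.C := by
  by_contra hemp
  rw [not_nonempty_iff] at hemp
  have hz : Y.mass = 0 := by
    unfold KbSys.mass
    exact Finset.sum_of_isEmpty _
  unfold KbSys.Big at h
  rw [hz, mul_zero] at h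
  exact absurd h (by norm_num)

/-- in a saturated system the common exponent of `J_c / ν_c` is `- f(r)` -/
theorem kp4_sat_exp (E : KbEx v) (Y : E.Sys) (r h e f₀ : ℝ) (hY : E.IsSys Y r h) (hs : E.IsSat Y f₀)
    (he : E.ChExp Y (fun k c => ((Y k).ch c).J / ((Y k).nuC c).toReal) e) : e = -f₀ := by
  have := Claimed.Agent.R255.uf_neBot
  have key : ∀ τ : ℝ, 0 < τ → -e - τ ≤ f₀ + τ ∧ f₀ - τ ≤ -e + τ := by
    intro τ hτ
    have ev : ∀ᶠ k in uf, -e - τ ≤ f₀ + τ ∧ f₀ - τ ≤ -e + τ := by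
      filter_upwards [hY.2.1 τ hτ, hs τ hτ, he τ hτ] with k hk hsat hexp
      obtain ⟨c⟩ := kp4_big_nonempty (Y k) _ hk.2
      obtain ⟨_, s2, s3⟩ := hsat c
      obtain ⟨lo, hi⟩ := hexp c
      have hN := kb_L3_rpow_pos E.R k
      set J := ((Y k).ch c).J with hJ
      set ν := (Y k).nuC c with hν
      have hx : 0 < J / ν.toReal := lt_of_lt_of_le (hN _) lo
      have hJ0 : 0 ≤ J := abs_nonneg _
      have hν0 : 0 ≤ ν.toReal := ENNReal.toReal_nonneg
      have hνpos : 0 < ν.toReal := by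
        rcases hν0.lt_or_eq with h1 | h1
        · exact h1
        · rw [← h1, div_zero] at hx
          exact absurd hx (lt_irrefl _)
      have hJpos : 0 < J := by
        rcases hJ0.lt_or_eq with h1 | h1
        · exact h1
        · rw [← h1, zero_div] at hx
          exact absurd hx (lt_irrefl _)
      have hνfin : ν ≠ ∞ := fun h => by
        rw [h, ENNReal.toReal_top] at hνpos
        exact absurd hνpos (lt_irrefl _)
      have t2 : ν.toReal ≤ E.R.N k ^ τ * E.R.N k ^ (-f₀) * J :=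
        ENNReal.toReal_le_of_le_ofReal (mul_nonneg (mul_nonneg (hN _).le (hN _).le) hJ0) s2
      have t3 : E.R.N k ^ (-f₀) * J ≤ E.R.N k ^ τ * ν.toReal := by
        have h1 : ENNReal.ofReal (E.R.N k ^ τ) * ν = ENNReal.ofReal (E.R.N k ^ τ * ν.toReal) := by
          rw [ENNReal.ofReal_mul (hN _).le, ENNReal.ofReal_toReal hνfin]
        rw [h1] at s3
        exact (ENNReal.ofReal_le_ofReal_iff (mul_nonneg (hN _).le hν0)).1 s3
      constructor
      · -- `N^(-e-τ) ≤ J/ν ≤ N^(f₀+τ)`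
        have h1 : J / ν.toReal ≤ E.R.N k ^ (f₀ + τ) := by
          rw [div_le_iff₀ hνpos]
          have e1 : E.R.N k ^ (f₀ + τ) = E.R.N k ^ f₀ * E.R.N k ^ τ := Real.rpow_add (kb_L3_pos E.R k) _ _
          have e2 : E.R.N k ^ f₀ * E.R.N k ^ (-f₀) = 1 := by
            rw [← Real.rpow_add (kb_L3_pos E.R k)]
            simp
          calc J = E.R.N k ^ f₀ * (E.R.N k ^ (-f₀) * J) := by rw [← mul_assoc, e2, one_mul]
            _ ≤ E.R.N k ^ f₀ * (E.R.N k ^ τ * ν.toReal) := mul_le_mul_of_nonneg_left t3 (hN _).le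
            _ = E.R.N k ^ (f₀ + τ) * ν.toReal := by rw [e1]; ring
        exact (kb_L3_rpow_le_iff E.R k).1 (lo.trans h1)
      · have h1 : E.R.N k ^ (f₀ - τ) ≤ J / ν.toReal := by
          rw [le_div_iff₀ hνpos]
          have e1 : E.R.N k ^ (f₀ - τ) * (E.R.N k ^ τ * E.R.N k ^ (-f₀)) = 1 := by
            rw [← Real.rpow_add (kb_L3_pos E.R k), ← Real.rpow_add (kb_L3_pos E.R k)]
            have : f₀ - τ + (τ + -f₀) = 0 := by ring
            rw [this, Real.rpow_zero]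
          calc E.R.N k ^ (f₀ - τ) * ν.toReal ≤ E.R.N k ^ (f₀ - τ) * (E.R.N k ^ τ * E.R.N k ^ (-f₀) * J) :=
                mul_le_mul_of_nonneg_left t2 (hN _).le
            _ = (E.R.N k ^ (f₀ - τ) * (E.R.N k ^ τ * E.R.N k ^ (-f₀))) * J := by ring
            _ = J := by rw [e1, one_mul]
        exact (kb_L3_rpow_le_iff E.R k).1 (h1.trans hi)
    exact ev.exists.choose_spec
  apply le_antisymm
  · refine le_of_forall_pos_le_add fun ε hε => ?_
    have := (key (ε / 2) (by positivity)).2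
    linarith
  · refine le_of_forall_pos_le_add fun ε hε => ?_
    have := (key (ε / 2) (by positivity)).1
    linarith

/-- **consecutive profiles**: the profile of the remaining problem is the shifted profile, normalised to `0` at depth `0` -/
theorem kp4_node_prof (p : K4aPath (kp4Fr v S η)) (hp : p.Ok) (g : ℕ) (hg : g < p.n) (s : ℝ) (hs0 : 0 ≤ s)
    (hs : s ≤ (Kp4Pb.E (p.E (g + 1))).L) :
    Kp4Pb.f (p.E (g + 1)) s 0 = Kp4Pb.f (p.E g) (Kp4At.r (p.A g) + s) 0 - Kp4Pb.f (p.E g) (Kp4At.r (p.A g)) 0 := by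
  obtain ⟨t1, t2, t3⟩ := kp4_node_tru p hp g hg.le
  obtain ⟨e, h1, _, h3, h4, _, _, h7, h8⟩ := (kp4_rem_unfold (hp.rem g hg)).choose_spec.choose_spec
  have hL : (Kp4Pb.E (p.E (g + 1))).L = (Kp4Pb.E (p.E g)).L - Kp4At.r (p.A g) := by
    rw [h1]
    rfl
  have he := kp4_sat_exp _ _ _ _ e _ h3.1 (kp4_restr_sat_of_true _ _ _ _ _ t2 (h8 t1)) h4
  rw [h7 t3 s hs0 (by rw [← hL]; exact hs), he]
  ring

/-- **a fitted path of the frame is a path over the Base** -/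
theorem kp4_path_ok (p : K4aPath (kp4Fr v S η)) {r : ℕ → ℝ} {c θ : ℝ} (h : p.Fit r c θ) :
    (kp4Path p h.ok).Ok ((kp4Fr v S η).dst + θ) S η where
  step := fun g hg => (kp4_node_spec p h.ok g hg).1
  cap := fun g hg => kp4_inC_cap (p.E g) (h.mxE g hg).1
  r_pos := fun g hg => h.dpos g hg
  r_lt := fun g hg => (kp4_node_spec p h.ok g hg).2.1
  r_end := h.ok.last.2
  sys := fun g hg => (kp4_node_prep p h.ok g hg).1
  sat := fun g hg => (kp4_node_prep p h.ok g hg).2.1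
  own := fun g hg => (kp4_node_prep p h.ok g hg).2.2.1
  nar := fun _ g hg => (kp4_node_prep p h.ok g hg).2.2.2
  link := fun g hg s hs0 hs => kp4_node_prof p h.ok g hg s hs0 hs

/-! ## The exclusions in concrete form -/

theorem kp4_excl1 (X : Kp4Pb v S η) (k ζ : ℝ) (h : ∀ B : Kp4At X, B.r < X.E.L → k * B.r - ζ ≤ B.h) : KpExcl1 X.E k ζ := by
  intro Y r h' hr hrL hY
  obtain ⟨B, b1, b2⟩ := kp4_atlas_at X Y r h' hr hrL.le hY
  have := h B (by rw [b1]; exact hrL)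
  rw [b1, b2] at this
  exact this

theorem kp4_excl2 (X : Kp4Pb v S η) (k ell δ ζ : ℝ)
    (h : ∀ B : Kp4At X, B.r ≤ X.E.L / 2 → B.h ≤ k * B.r + δ → B.l ≤ ell * B.r + ζ) : KpExcl2 X.E k ell δ ζ := by
  intro Y r h' x hr hrL hY hx hc
  have hL := X.ok.1
  exact h ⟨Y, r, h', x, hr, by linarith, hY, hx⟩ hrL hc

end

end Claimed.Agent.R252
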