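import Claimed.Agent.R252.Base.Hub2
import Claimed.Agent.R252.S3b.ExtGlue
import Claimed.Agent.R252.S3b.Hub
import Claimed.Agent.R252.S3e1.Main

/-!
# ROW 252 (S0492), unit S4 (helper128), file Rate: THE EXTREMAL RATES OF SEC 4.1 OVER THE BASE  (04-critical-paths.tex l.1-100).      No `sorry`: the hub `kp4_term_ext` (= L3.5) is wired to `S3b/ExtGlue`, `S3b/Hub`, `S3e1/Main` (was: CONTRACT, owner S3b).

Concrete definitions over `Base/Seq` and PROOFS from the hubs of `Base/Hub2`: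
* `kp4Dst v S η`   `d_* = inf {d | KbBad v S η d}`;      `kp4K v S η d`   `k(d) = sup H(E)/L`;      `kp4Kst v S η`   `k = inf_{d_* < d < 1} k(d)` (= right limit, `kp4_K_mono`).
* `kp4_comp`       (4.2) `H(E) ≤ h + H(F)`, `F` = normalisation through a known atlas with common `J/ν` exponent and the terminal equality (this is what `kb_norm` returns).
* `kp4_comp_norm`  the same with the preparation of `kb_norm` inside:  `∃ F ∈ C(d)` of length `L - r` with `H(E) ≤ h + H(F)`;   `kp4_comp_K` : `H(E) ≤ h + k(d) (L - r)`.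
* `kp4_comp_coarse` (4.3) `H(E) ≤ H(E.coarsen r) + k(d) (L - r)`.
* `kp4_K_lower`, `kp4_Kst_pos`, `kp4_Kst_le_one`   L4.2  `0 < k ≤ 1`.
No outer sequences, no rescaling to length one: all rates are ratios to the length.
-/

set_option autoImplicit false

namespace Claimed.Agent.R252

open MeasureTheory Filter Topology
open Claimed.Agent.R255 (uf)
open scoped ENNReal BigOperators

noncomputable section

variable {v : KbVer}

/-! ## The hub of Section 3 used here -/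

/-- **L3.5 terminal time extension** (03-comparison.tex l.846; owner S3b).  The constants depend only on `d₀, S, η` and the version. -/
theorem kp4_term_ext (v : KbVer) (d₀ S η : ℝ) (hd : d₀ < 1) (hS : 0 < S) (hη : 0 < η) :
    ∃ C c : ℝ, 0 < C ∧ 0 < c ∧ ∀ (E : KbEx v) (d : ℝ) (f : ℝ → ℝ → ℝ), d ≤ d₀ → E.Cap d S η f →
      ∀ (Y : E.Sys) (h : ℝ), 0 < h → E.IsTrueSys f Y E.L h → ∀ e : ℝ, 0 < e → e < h → e < c * E.L →
        ∃ (Y' : E.Sys) (L' : ℝ), 0 < L' ∧ L' < E.L ∧ E.L - L' ≤ C * e ∧ E.IsAtlas Y' L' (h - e) :=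
  k3g_term_ext (k3b_hub_of_cmp v (k3e1_cmp v)) d₀ S η hd hS hη

/-! ## Elementary facts on costs and horizons -/

theorem kp4_exp_one (R : KbRes) : KbExp R (fun _ => (1 : ℝ)) 0 := by
  intro τ hτ
  refine Eventually.of_forall fun k => ⟨?_, ?_⟩
  · have : R.N k ^ (-(0 : ℝ) - τ) ≤ R.N k ^ (0 : ℝ) := (kb_L3_rpow_le_iff R k).2 (by linarith)
    simpa using this
  · have : R.N k ^ (0 : ℝ) ≤ R.N k ^ (-(0 : ℝ) + τ) := (kb_L3_rpow_le_iff R k).2 (by linarith)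
    simpa using this

theorem kp4_q_le_one {P : KbPb v} (Y : KbSys P) : Y.q ≤ 1 := by
  unfold KbSys.q kbQ
  exact pow_le_one₀ (by norm_num) (by norm_num)

/-- time costs are nonnegative -/
theorem kp4_cost_nonneg (E : KbEx v) (Y : E.Sys) (r h : ℝ) (hY : E.IsSys Y r h) : 0 ≤ h := by
  refine kb_exp_le E.R hY.2.2 (kp4_exp_one E.R) ?_
  intro τ hτ
  refine Eventually.of_forall fun k => ?_
  have h1 := kb_L3_one_le_rpow E.R k hτ.le
  have h2 := kp4_q_le_one (Y k)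
  linarith

theorem kp4_costs_bdd (E : KbEx v) (f : ℝ → ℝ → ℝ) : BddBelow (E.costs f) := ⟨0, fun _ h => h.1⟩

theorem kp4_hor_nonneg (E : KbEx v) (f : ℝ → ℝ → ℝ) : 0 ≤ E.Hor f := Real.sInf_nonneg fun _ h => h.1

theorem kp4_hor_le (E : KbEx v) (f : ℝ → ℝ → ℝ) (Y : E.Sys) (h : ℝ) (hY : E.IsTrueSys f Y E.L h) : E.Hor f ≤ h :=
  csInf_le (kp4_costs_bdd E f) ⟨kp4_cost_nonneg E Y _ h hY.1, Y, hY⟩

theorem kp4_costs_nonempty (E : KbEx v) (hE : E.Ok) (f : ℝ → ℝ → ℝ) (hf : E.Hom f) : (E.costs f).Nonempty := by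
  obtain ⟨Y, hY⟩ := kb_horizon_le E hE f hf
  exact ⟨E.L, hE.1.le, Y, hY⟩

/-- P2.16 : `H(E) ≤ L` -/
theorem kp4_hor_le_L (E : KbEx v) (hE : E.Ok) (f : ℝ → ℝ → ℝ) (hf : E.Hom f) : E.Hor f ≤ E.L := by
  obtain ⟨Y, hY⟩ := kb_horizon_le E hE f hf
  exact kp4_hor_le E f Y _ hY

/-- true terminal systems with cost close to the horizon -/
theorem kp4_hor_near (E : KbEx v) (hE : E.Ok) (f : ℝ → ℝ → ℝ) (hf : E.Hom f) (ε : ℝ) (hε : 0 < ε) :
    ∃ (Y : E.Sys) (h : ℝ), E.IsTrueSys f Y E.L h ∧ E.Hor f ≤ h ∧ h < E.Hor f + ε := by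
  obtain ⟨h, hh, hlt⟩ := exists_lt_of_csInf_lt (kp4_costs_nonempty E hE f hf) (show sInf (E.costs f) < E.Hor f + ε by
    unfold KbEx.Hor
    linarith)
  obtain ⟨_, Y, hY⟩ := hh
  exact ⟨Y, h, hY, kp4_hor_le E f Y h hY, hlt⟩

/-! ## The rates -/

/-- the caps which permit a positive horizon -/
def kp4Dset (v : KbVer) (S η : ℝ) : Set ℝ := {d | KbBad v S η d}

/-- `d_*` -/
def kp4Dst (v : KbVer) (S η : ℝ) : ℝ := sInf (kp4Dset v S η)

/-- the ratios `H(E) / L`, `E ∈ C(d)` -/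
def kp4Kset (v : KbVer) (S η d : ℝ) : Set ℝ := {x | ∃ (E : KbEx v) (f : ℝ → ℝ → ℝ), E.Cap d S η f ∧ x = E.Hor f / E.L}

/-- `k(d)` -/
def kp4K (v : KbVer) (S η d : ℝ) : ℝ := sSup (kp4Kset v S η d)

/-- `k = lim_{d ↓ d_*} k(d)` -/
def kp4Kst (v : KbVer) (S η : ℝ) : ℝ := sInf (kp4K v S η '' Set.Ioo (kp4Dst v S η) 1)

theorem kp4_cap_mono (E : KbEx v) {d d' S η : ℝ} {f : ℝ → ℝ → ℝ} (h : E.Cap d S η f) (hd : d ≤ d') (hd' : d' < 1) : E.Cap d' S η f where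
  ok := h.ok
  hom := h.hom
  d_lt := hd'
  endp := fun r hr => (h.endp r hr).trans (mul_le_mul_of_nonneg_right hd (by linarith [hr.2]))
  ang := h.ang

/-- the cap of a nonempty class is nonnegative -/
theorem kp4_cap_nonneg (E : KbEx v) {d S η : ℝ} {f : ℝ → ℝ → ℝ} (h : E.Cap d S η f) : 0 ≤ d := by
  have hL := h.ok.1
  have h1 := (kb_profile E h.ok f h.hom).r_mono 0 E.L 0 le_rfl hL.le le_rfl le_rfl
  have h2 := h.endp 0 ⟨le_rfl, hL.le⟩
  by_contra hd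
  rw [not_le] at hd
  nlinarith

theorem kp4_Dset_bdd (v : KbVer) (S η : ℝ) : BddBelow (kp4Dset v S η) :=
  ⟨0, fun _ ⟨E, _, hc, _⟩ => kp4_cap_nonneg E hc⟩

theorem kp4_Dst_nonneg (v : KbVer) (S η : ℝ) : 0 ≤ kp4Dst v S η :=
  Real.sInf_nonneg fun _ ⟨E, _, hc, _⟩ => kp4_cap_nonneg E hc

theorem kp4_Dst_lt_one (v : KbVer) (S η d : ℝ) (h : KbBad v S η d) : kp4Dst v S η < 1 := by
  obtain ⟨E, f, hc, hp⟩ := h
  exact lt_of_le_of_lt (csInf_le (kp4_Dset_bdd v S η) ⟨E, f, hc, hp⟩) hc.d_lt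

theorem kp4_bad_mono {S η d d' : ℝ} (h : KbBad v S η d) (hd : d ≤ d') (hd' : d' < 1) : KbBad v S η d' := by
  obtain ⟨E, f, hc, hp⟩ := h
  exact ⟨E, f, kp4_cap_mono E hc hd hd', hp⟩

/-- bad problems exist for every cap above `d_*` -/
theorem kp4_bad_above {S η d₁ d : ℝ} (h : KbBad v S η d₁) (hd : kp4Dst v S η < d) (hd' : d < 1) : KbBad v S η d := by
  obtain ⟨d₂, h2, hlt⟩ := exists_lt_of_csInf_lt (⟨d₁, h⟩ : (kp4Dset v S η).Nonempty) hd
  exact kp4_bad_mono h2 hlt.le hd'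

theorem kp4_Kset_le_one (v : KbVer) (S η d : ℝ) : ∀ x ∈ kp4Kset v S η d, 0 ≤ x ∧ x ≤ 1 := by
  rintro x ⟨E, f, hc, rfl⟩
  have hL := hc.ok.1
  exact ⟨div_nonneg (kp4_hor_nonneg E f) hL.le, (div_le_one hL).2 (kp4_hor_le_L E hc.ok f hc.hom)⟩

theorem kp4_Kset_bdd (v : KbVer) (S η d : ℝ) : BddAbove (kp4Kset v S η d) := ⟨1, fun x hx => (kp4_Kset_le_one v S η d x hx).2⟩

theorem kp4_K_nonneg (v : KbVer) (S η d : ℝ) : 0 ≤ kp4K v S η d := Real.sSup_nonneg fun x hx => (kp4_Kset_le_one v S η d x hx).1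

theorem kp4_K_le_one (v : KbVer) (S η d : ℝ) : kp4K v S η d ≤ 1 := Real.sSup_le (fun x hx => (kp4_Kset_le_one v S η d x hx).2) zero_le_one

/-- the defining property of `k(d)` -/
theorem kp4_hor_le_K (E : KbEx v) {d S η : ℝ} {f : ℝ → ℝ → ℝ} (h : E.Cap d S η f) : E.Hor f ≤ kp4K v S η d * E.L := by
  have hL := h.ok.1
  have : E.Hor f / E.L ≤ kp4K v S η d := le_csSup (kp4_Kset_bdd v S η d) ⟨E, f, h, rfl⟩
  exact (div_le_iff₀ hL).1 this

theorem kp4_K_mono (v : KbVer) (S η : ℝ) {d d' : ℝ} (hd : d ≤ d') (hd' : d' < 1) : kp4K v S η d ≤ kp4K v S η d' := by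
  refine Real.sSup_le ?_ (kp4_K_nonneg v S η d')
  rintro x ⟨E, f, hc, rfl⟩
  exact le_csSup (kp4_Kset_bdd v S η d') ⟨E, f, kp4_cap_mono E hc hd hd', rfl⟩

theorem kp4_Kst_bdd (v : KbVer) (S η : ℝ) : BddBelow (kp4K v S η '' Set.Ioo (kp4Dst v S η) 1) :=
  ⟨0, by rintro _ ⟨d, _, rfl⟩; exact kp4_K_nonneg v S η d⟩

theorem kp4_Kst_le (v : KbVer) (S η : ℝ) {d : ℝ} (hd : kp4Dst v S η < d) (hd' : d < 1) : kp4Kst v S η ≤ kp4K v S η d :=
  csInf_le (kp4_Kst_bdd v S η) ⟨d, ⟨hd, hd'⟩, rfl⟩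

theorem kp4_Kst_nonneg (v : KbVer) (S η : ℝ) : 0 ≤ kp4Kst v S η :=
  Real.sInf_nonneg (by rintro _ ⟨d, _, rfl⟩; exact kp4_K_nonneg v S η d)

/-- `k(d) → k` as `d ↓ d_*` -/
theorem kp4_K_near (v : KbVer) (S η d₁ : ℝ) (h : KbBad v S η d₁) (ε : ℝ) (hε : 0 < ε) :
    ∃ δ : ℝ, 0 < δ ∧ kp4Dst v S η + δ < 1 ∧ ∀ d, d ≤ kp4Dst v S η + δ → kp4K v S η d < kp4Kst v S η + ε := by
  have hlt := kp4_Dst_lt_one v S η d₁ h
  have hne : (kp4K v S η '' Set.Ioo (kp4Dst v S η) 1).Nonempty :=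
    ⟨_, (kp4Dst v S η + 1) / 2, ⟨by linarith, by linarith⟩, rfl⟩
  obtain ⟨_, ⟨d, hd, rfl⟩, hx⟩ := exists_lt_of_csInf_lt hne (show sInf _ < kp4Kst v S η + ε by
    unfold kp4Kst
    linarith)
  refine ⟨d - kp4Dst v S η, by linarith [hd.1], by linarith [hd.2], fun d' hd' => ?_⟩
  exact lt_of_le_of_lt (kp4_K_mono v S η (by linarith) hd.2) hx

/-! ## L4.1 composition of horizon costs -/

/-- **(4.2)** in the prepared form -/
theorem kp4_comp (E : KbEx v) (hE : E.Ok) (f f' : ℝ → ℝ → ℝ) (hf : E.Hom f) (Y : E.Sys) (r h e : ℝ) (hr : 0 ≤ r) (hrL : r < E.L)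
    (hY : E.IsAtlas Y r h) (he : E.ChExp Y (fun k c => ((Y k).ch c).J / ((Y k).nuC c).toReal) e)
    (hok : (E.norm Y r).Ok) (hf' : (E.norm Y r).Hom f') (heq : f' (E.L - r) 0 = f E.L 0 + e) :
    E.Hor f ≤ h + (E.norm Y r).Hor f' := by
  refine le_of_forall_pos_le_add fun ε hε => ?_
  obtain ⟨Y', h', hY', _, hlt⟩ := kp4_hor_near (E.norm Y r) hok f' hf' ε hε
  have hs : (0 : ℝ) < E.L - r := by linarith
  have heq' : f' (E.L - r) 0 = f (r + (E.L - r)) 0 + e := by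
    rw [heq]
    congr 2
    ring
  have key := kb_lift_true E hE f f' hf Y r h e hr hrL hY he hf' (E.L - r) hs le_rfl heq' Y' h' hY'
  have e1 : r + (E.L - r) = E.L := by ring
  rw [e1] at key
  have := kp4_hor_le E f _ _ key
  linarith

/-- **(4.2)** with the preparation inside: the remaining problem is in the same cap class -/
theorem kp4_comp_norm (E : KbEx v) {d S η : ℝ} {f : ℝ → ℝ → ℝ} (hc : E.Cap d S η f) (Y : E.Sys) (r h : ℝ) (hr : 0 ≤ r) (hrL : r < E.L)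
    (hY : E.IsAtlas Y r h) :
    ∃ (F : KbEx v) (f' : ℝ → ℝ → ℝ), F.Cap d S η f' ∧ F.L = E.L - r ∧ F.R = E.R ∧ E.Hor f ≤ h + F.Hor f' := by
  obtain ⟨keep, S', e, f', h1, h2, h3, h4, h5, _, _, _, h9⟩ := kb_norm E hc.ok f hc.hom Y r h hr hrL hY
  exact ⟨E.norm (E.restr Y keep S') r, f', h9 d S η hc, rfl, rfl, kp4_comp E hc.ok f f' hc.hom _ r h e hr hrL h1 h2 h3 h4 h5⟩

/-- every known atlas at depth `r` costs at least `H(E) - k(d) (L - r)` -/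
theorem kp4_comp_K (E : KbEx v) {d S η : ℝ} {f : ℝ → ℝ → ℝ} (hc : E.Cap d S η f) (Y : E.Sys) (r h : ℝ) (hr : 0 ≤ r) (hrL : r < E.L)
    (hY : E.IsAtlas Y r h) : E.Hor f ≤ h + kp4K v S η d * (E.L - r) := by
  obtain ⟨F, f', hF, hL, _, hle⟩ := kp4_comp_norm E hc Y r h hr hrL hY
  have := kp4_hor_le_K F hF
  rw [hL] at this
  linarith

/-! ### coarsening -/

theorem kp4_coarsen_ok (E : KbEx v) (hE : E.Ok) (r : ℝ) (hr : 0 < r) : (E.coarsen r).Ok := ⟨hr, hE.2.1, hE.2.2⟩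

theorem kp4_coarsen_hom (E : KbEx v) (f : ℝ → ℝ → ℝ) (hf : E.Hom f) (r : ℝ) (hr : r ≤ E.L) : (E.coarsen r).Hom f where
  pure := fun s hs => hf.pure s ⟨hs.1, hs.2.trans hr⟩
  joint := fun s hs u hu => hf.joint s ⟨hs.1, hs.2.trans hr⟩ u hu

/-- only the slope condition at the new end point has to be checked (L2.7) -/
theorem kp4_coarsen_cap (E : KbEx v) {d d' S η : ℝ} {f : ℝ → ℝ → ℝ} (hc : E.Cap d S η f) (r : ℝ) (hr : 0 < r) (hrL : r ≤ E.L) (hd' : d' < 1)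
    (hs : ∀ s ∈ Set.Icc 0 r, f r 0 - f s 0 ≤ d' * (r - s)) : (E.coarsen r).Cap d' S η f where
  ok := kp4_coarsen_ok E hc.ok r hr
  hom := kp4_coarsen_hom E f hc.hom r hrL
  d_lt := hd'
  endp := hs
  ang := by
    intro u hu hur
    have hur' : u ≤ η * r := hur
    have hη : 0 < η := by
      by_contra hη
      rw [not_lt] at hη
      nlinarith
    exact kb_coarse E d S η f hc r u hr.le hrL hu (hur'.trans (mul_le_mul_of_nonneg_left hrL hη.le))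

/-- a true system at depth `r` can be prepared to a known atlas -/
theorem kp4_true_atlas (E : KbEx v) (hE : E.Ok) (f : ℝ → ℝ → ℝ) (hf : E.Hom f) (Y : E.Sys) (r h : ℝ) (hr : 0 < r) (hrL : r ≤ E.L)
    (hY : E.IsTrueSys f Y r h) :
    ∃ Y₁ : E.Sys, E.IsTrueSys f Y₁ r h ∧ E.IsSat Y₁ (f r 0) ∧ E.IsKnown Y₁ r ∧ E.IsAtlas Y₁ r h := by
  obtain ⟨keep, S', h1, h2, h3⟩ := kb_sat E hE f hf Y r h hr hrL hY
  exact ⟨_, h1, h2, h3, h1.1, kb_known_mono E hE _ r E.L hrL h3⟩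

/-- every true system at depth `r` costs at least `H(E) - k(d) (L - r)` -/
theorem kp4_true_K (E : KbEx v) {d S η : ℝ} {f : ℝ → ℝ → ℝ} (hc : E.Cap d S η f) (Y : E.Sys) (r h : ℝ) (hr : 0 < r) (hrL : r ≤ E.L)
    (hY : E.IsTrueSys f Y r h) : E.Hor f ≤ h + kp4K v S η d * (E.L - r) := by
  rcases hrL.lt_or_eq with hlt | heq
  · obtain ⟨Y₁, _, _, _, h4⟩ := kp4_true_atlas E hc.ok f hc.hom Y r h hr hrL hY
    exact kp4_comp_K E hc Y₁ r h hr.le hlt h4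
  · subst heq
    have := kp4_hor_le E f Y h hY
    simpa using this

/-- **(4.3)** -/
theorem kp4_comp_coarse (E : KbEx v) {d S η : ℝ} {f : ℝ → ℝ → ℝ} (hc : E.Cap d S η f) (r : ℝ) (hr : 0 < r) (hrL : r ≤ E.L) :
    E.Hor f ≤ (E.coarsen r).Hor f + kp4K v S η d * (E.L - r) := by
  refine le_of_forall_pos_le_add fun ε hε => ?_
  obtain ⟨Y, h, hY, _, hlt⟩ := kp4_hor_near (E.coarsen r) (kp4_coarsen_ok E hc.ok r hr) f (kp4_coarsen_hom E f hc.hom r hrL) ε hε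
  have hY' : E.IsTrueSys f Y r h := hY
  have := kp4_true_K E hc Y r h hr hrL hY'
  linarith

/-! ## L4.2 a positive critical time rate -/

/-- uniform lower bound for `k(d)` on the bad caps `d ≤ d₀` -/
theorem kp4_K_lower (v : KbVer) (d₀ S η : ℝ) (hd : d₀ < 1) (hS : 0 < S) (hη : 0 < η) :
    ∃ κ : ℝ, 0 < κ ∧ ∀ d, d ≤ d₀ → KbBad v S η d → κ ≤ kp4K v S η d := by
  obtain ⟨C, c, hC, hc, key⟩ := kp4_term_ext v d₀ S η hd hS hη
  refine ⟨3 / (4 * C), by positivity, ?_⟩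
  rintro d hdd ⟨E, f, hcap, hpos⟩
  have hL := hcap.ok.1
  -- choose `e`
  set e : ℝ := min (E.Hor f) (c * E.L) / 2 with he
  have hm : 0 < min (E.Hor f) (c * E.L) := lt_min hpos (by positivity)
  have he0 : 0 < e := by positivity
  have he1 : e < E.Hor f := lt_of_lt_of_le (by linarith) (min_le_left (E.Hor f) (c * E.L))
  have he2 : e < c * E.L := lt_of_lt_of_le (by linarith) (min_le_right (E.Hor f) (c * E.L))
  obtain ⟨Y, h, hY, hle, hlt⟩ := kp4_hor_near E hcap.ok f hcap.hom (e / 4) (by positivity)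
  obtain ⟨Y', L', hL0, hL1, hL2, hY'⟩ := key E d f hdd hcap Y h (by linarith) hY e he0 (by linarith) he2
  obtain ⟨F, f', hF, hFL, _, hcomp⟩ := kp4_comp_norm E hcap Y' L' (h - e) hL0.le hL1 hY'
  have h1 : 3 * e / 4 < F.Hor f' := by linarith
  have h2 := kp4_hor_le_K F hF
  rw [hFL] at h2
  have hK := kp4_K_nonneg v S η d
  have h3 : kp4K v S η d * (E.L - L') ≤ kp4K v S η d * (C * e) := mul_le_mul_of_nonneg_left hL2 hK
  have h4 : 3 * e / 4 < kp4K v S η d * (C * e) := by linarith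
  rw [div_le_iff₀ (by positivity)]
  nlinarith

/-- **L4.2** `0 < k` -/
theorem kp4_Kst_pos (v : KbVer) (S η d₁ : ℝ) (hS : 0 < S) (hη : 0 < η) (h : KbBad v S η d₁) : 0 < kp4Kst v S η := by
  have hlt := kp4_Dst_lt_one v S η d₁ h
  obtain ⟨κ, hκ, key⟩ := kp4_K_lower v ((kp4Dst v S η + 1) / 2) S η (by linarith) hS hη
  refine lt_of_lt_of_le hκ (le_csInf ⟨_, (kp4Dst v S η + 1) / 2, ⟨by linarith, by linarith⟩, rfl⟩ ?_)
  rintro _ ⟨d, hd, rfl⟩
  have hm1 : kp4Dst v S η < min d ((kp4Dst v S η + 1) / 2) := lt_min hd.1 (by linarith)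
  have hm2 : min d ((kp4Dst v S η + 1) / 2) < 1 := lt_of_le_of_lt (min_le_left _ _) hd.2
  exact (key _ (min_le_right _ _) (kp4_bad_above h hm1 hm2)).trans (kp4_K_mono v S η (min_le_left _ _) hd.2)

/-- **L4.2** `k ≤ 1` -/
theorem kp4_Kst_le_one (v : KbVer) (S η d₁ : ℝ) (h : KbBad v S η d₁) : kp4Kst v S η ≤ 1 := by
  have hlt := kp4_Dst_lt_one v S η d₁ h
  exact (kp4_Kst_le v S η (d := (kp4Dst v S η + 1) / 2) (by linarith) (by linarith)).trans (kp4_K_le_one v S η _)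

end

end Claimed.Agent.R252
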