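import Claimed.Agent.R252.S4.Tan

/-!
# ROW 252 (S0492), unit S4 (post BP-252-T3-S4, chief helper269), file 2: GUARDED SAMPLES  (04-critical-paths.tex l.341-476, `a03:finite-guard`, `a03:excluded-improvements`).      Definitions only, no `sorry`.

DECISION (19:30Z): **the "original problem" of Secs 4.2-4.5 is the REMAINING PROBLEM `F` AT THE PARENT NODE** (remaining problems at true path nodes are again maximizing, P4.3 (2); Sec 9 l.33-40 does the same).
So a sample of the guarded diagonal is ONE one-scale problem `s.P` (= `F` at the sample `N₀`, hidden unit `B = 1`; worlds = parents), the tangent data live on it, and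
the excluded outputs are chart systems `Y : KbSys s.P` of THE SAME problem: no parent system, no lift, no return to an older problem in S4D, S4E, S4F.   (The choice of the entropy window among the windows of a long path is internal to S4C:
for fixed `(n, i)` the window index is constant along `uf`.)
* `s : KpSam v`       data: `P, N0, eps` (`N = N0^eps`), `Lr` = length of `F` in the units of `N0` (terminal thickness `aL = N0^{-Lr}`), the nodes `G, dep, Q, up`, `pal, ref`,
                      `Kp = K_path` (ACTUAL subpower factor of the exact problem `F` and its path), stage `n`, thresholds `th` (gain), `thc` (cheapness), complexity exponents `Mp = M_path`, `Mg = M^#`.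
* `s.Ks = (K_path log N₀)^n`  the slack allowed to an output;      `s.tan : KpTan v`  the tangent data, with `Act r D ℓ := kpKnown .. ((K_path log N₀)^r)`.
* `s.Atl Y r`         `Y` is an output known atlas at depth `r` (units of `N0`): (2), (3) of `a03:finite-guard`.
* `s.Guard p`         ABSOLUTE form of the two excluded improvements (as in helper23's exits): every output atlas at depth `r` costs time `> k r - th`; a cheap one (`≤ k r + thc`) is not uniformly narrower than `ell r + th`.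
* `s.Ok p τ`          everything with tolerance `τ`; MONOTONE in `τ`.      `KpSamSeqOk R s p`.
-/

set_option autoImplicit false

namespace Claimed.Agent.R252

open MeasureTheory Filter Topology
open Claimed.Agent.R255 (uf)
open scoped ENNReal BigOperators

noncomputable section

variable {v : KbVer}

/-- the discrete state `ℓ` is known on the event by the observation (world, exact base, `ℓ₀`) up to lists of size `K` -/
def kpKnown (P : KbPb v) {D₀ D : Type} (ℓ₀ : P.Lab D₀) (ℓ : P.Lab D) (K : ℝ) : Prop :=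
  ∃ Lst : P.W → D₀ → ℝ × KbB v → Finset D, (∀ γ d o, ((Lst γ d o).card : ℝ) ≤ K) ∧ (∀ γ d c, MeasurableSet {o | c ∈ Lst γ d o}) ∧
    ∀ γ, ∀ x ∈ P.Ev γ, ℓ γ x ∈ Lst γ (ℓ₀ γ x) (P.bs γ x)

/-- **a sample of the guarded tangent diagonal** (data only) -/
structure KpSam (v : KbVer) where
  /-- the remaining problem at the parent node, at this sample; `Ev` = prepared path -/
  P : KbPb v
  /-- the resolution of the exact problem -/
  N0 : ℝ
  /-- tangent depth unit -/
  eps : ℝ
  /-- length of the exact problem -/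
  Lr : ℝ
  G : ℕ
  dep : ℕ → ℝ
  Q : ℕ → KbSys P
  up : ∀ m, (Q (m + 1)).C → (Q m).C
  pal : P.W → Measure (KbB v)
  ref : (Q G).C → ℝ≥0∞
  /-- `K_path` -/
  Kp : ℝ
  /-- the stage -/
  n : ℕ
  /-- forbidden gain threshold, in the exponent units of `N0` -/
  th : ℝ
  /-- cheapness threshold -/
  thc : ℝ
  /-- `M_path` -/
  Mp : ℝ
  /-- `M^#` -/
  Mg : ℝ

namespace KpSam

variable (s : KpSam v)

/-- terminal thickness -/
def aL : ℝ := s.N0 ^ (-s.Lr)

/-- the slack of an output -/
def Ks : ℝ := (s.Kp * Real.log s.N0) ^ s.n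

/-- the tangent data of a sample -/
def tan : KpTan v where
  P := s.P
  N := s.N0 ^ s.eps
  G := s.G
  dep := s.dep
  Q := s.Q
  up := s.up
  pal := s.pal
  ref := s.ref
  Act := fun r _ ℓ => kpKnown s.P (s.P.hid s.aL) ℓ ((s.Kp * Real.log s.N0) ^ r)

/-- **an output known atlas** at depth `r` -/
structure Atl (Y : KbSys s.P) (r : ℝ) : Prop where
  wf : Y.WF
  geo : Y.Geo s.Ks (s.N0 ^ (-r))
  known : Y.Known (s.P.hid s.aL) s.Ks
  tmp : Y.Tmp (s.N0 ^ s.Mg)
  mass : s.P.tot ≤ ENNReal.ofReal (Real.log s.N0) * Y.mass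

/-- **the finite-sample exclusion** -/
def Guard (p : KpPrm) : Prop :=
  ∀ (Y : KbSys s.P) (r : ℝ), 0 ≤ r → r ≤ s.Lr / 2 → s.Atl Y r →
    Y.q < s.N0 ^ (-(p.k * r - s.th)) ∧
    (v = KbVer.two → s.N0 ^ (-(p.k * r + s.thc)) ≤ Y.q → ∃ c, Y.q ^ 2 / (Y.ch c).J < s.N0 ^ (p.ell * r + s.th))

/-- **a guarded sample**, tolerance `τ` -/
structure Ok (p : KpPrm) (τ : ℝ) : Prop where
  tan : s.tan.Ok p τ
  guard : s.Guard p
  -- the diagonal
  eps_pos : 0 < s.eps
  eps_le : s.eps ≤ τ
  Lr_lo : 1 / 8 ≤ s.Lr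
  Lr_hi : s.Lr ≤ 1
  win : s.eps * s.dep s.G ≤ τ
  th_pos : 0 < s.th
  th_le : s.th ≤ τ * s.eps
  thc_pos : 0 < s.thc
  thc_le : s.thc ≤ τ * s.eps
  stage : 1 / τ ≤ (s.n : ℝ)
  /-- (a03:slack-diagonal) -/
  slack : s.Ks ≤ (s.N0 ^ s.eps) ^ τ
  /-- (a03:mass-diagonal) -/
  nodes : (s.G : ℝ) + 1 ≤ τ * Real.log s.N0
  small : s.Kp * Real.log s.N0 ≤ τ * s.N0
  -- ACTUAL bounds of the exact problem and of its path
  Kp_one : 2 ≤ s.Kp
  ntv : s.P.Ntv s.Kp
  tmp : s.P.Tmp (s.N0 ^ s.Mp)
  geo : ∀ m ≤ s.G, (s.Q m).Geo s.Kp (s.N0 ^ (-(s.eps * s.dep m)))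
  known : ∀ m ≤ s.G, (s.Q m).Known (s.P.hid s.aL) s.Kp
  sys_tmp : ∀ m ≤ s.G, (s.Q m).Tmp (s.N0 ^ s.Mp)
  full : ∀ m ≤ s.G, ∀ c, (s.Q m).q ≤ s.Kp * kbMn ((s.Q m).ch c).D
  major : 0 < p.ell → ∀ m ≤ s.G, ∀ c, (s.Q m).q ≤ s.Kp * ∑ i : Fin v.j, ∑ k : Fin v.j, if (i : ℕ) = 0 then |((s.Q m).ch c).D i k| else 0
  /-- the nodes are cheap -/
  cheap : ∀ m ≤ s.G, s.N0 ^ (-(p.k * (s.eps * s.dep m) + s.thc)) ≤ (s.Q m).q
  -- complexity guard (a03:complexity-guard)
  Mp_one : 1 ≤ s.Mp
  Mg_ge : (2 : ℝ) ^ ((s.Mp + s.n) ^ 2) ≤ s.Mg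

end KpSam

/-- guarded samples along the diagonal -/
def KpSamSeqOk (R : KbRes) (s : ℕ → KpSam v) (p : KpPrm) : Prop :=
  (∀ n, R.N n = (s n).N0 ^ (s n).eps) ∧ ∀ τ : ℝ, 0 < τ → ∀ᶠ n in uf, (s n).Ok p τ

end

end Claimed.Agent.R252
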