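import Claimed.Agent.R252.Base.Seq

/-!
# ROW 252 (S0492), unit S4 (post BP-252-T3-S4, chief helper269), file 1: TANGENT DATA  (04-critical-paths.tex l.477-857, 1051-1110, 1732-1760).      Definitions only, no `sorry`.

THE INTERFACE BETWEEN SEC 4 AND SECS 6, 7, 8.   `prop:tangent-palette` is prose on a mutable state; here it is ONE record at ONE scale + ONE predicate with ONE tolerance.
* `KpPrm`            the fixed exponents `d = d_*`, `k`, `ell`, `S`.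
* `X : KpTan v`      tangent data at one stage of the guarded diagonal (DATA only):
    `X.P : KbPb v`   the original problem NORMALISED AT THE PARENT NODE: worlds `γ` = parents `A`, `nu γ = ν_A` (prior conditioned on the full parent assignment), time = parent time, hidden unit `B = 1`,
                     `om γ ∝ ω_old q_A ν_old(A)`, and `Ev γ` = THE PREPARED PATH in `A` (all `o(1)` masks of the proposition and the likelihood truncation of `a03:finite-state-conditioning` are already made).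
                     So `mu γ = s_A λ_A` and `μ_prep (S) = X.P.mass S / X.P.tot`.   Later omissions are sub-selections `Rs` (`X.Res Rs`); NOTHING is ever renormalised.
    `X.N`            the tangent resolution `N = N₀^{ε_n}`;      `X.dep m` (`m ≤ X.G`) the tangent depths of the nodes;      `X.Q m : KbSys X.P` the true labels `Q_s`, `s = dep m`, in PARENT coordinates;
    `X.up`           the packet of the preceding node;  the END HISTORY of an incidence is its label at the last node `X.G`.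
    `X.pal γ`        the fixed palette `π_A` (a probability on velocities),      `X.ref e` the fixed reference weight `λ_{A,pre}(E)` of an end history.
    `X.Act r D ℓ`    "the discrete state `ℓ` is known at the ORIGINAL `p_L` with lists of size `≤ (K_path log N₀)^r`" : abstract here (consumers only use the closure rules `KpTan.ActOk`), defined in `S4/Sample.lean`.
* `X.Ok p τ`         items (1)-(4) of the proposition with `K = N^τ`, mesh of the nodes `≤ τ`, depth range `≥ 1/τ`, widths `p ∈ [N^{-1/τ}, 1]`.   MONOTONE in `τ`.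
                     Sequence level: `KpSeqOk R X p := ∀ τ > 0, ∀ᶠ n in uf, (X n).Ok p τ`.
* NOT fields, but tangent-level LEMMAS (post S4C): packet base cap (4.x `a03:packet-base-cap`), tilted-box rows, stable graphs / point-state ambiguity, time slices, appended states (`State/KsState`).
* `X.TimeCand`, `X.StripCand` (Def `a03:candidates`), `KpCandHyp` (hypothesis of `prop:candidate-upgrade`), `X.Brd`, `KpBreadth` (`a03:breadth`).
INFORMAL MODEL of `Ok` (sanity): `w ≡ w₀` with a `d`-dimensional Frostman law, independent of `(y₀, V)` uniform; packets = (time block of length `q_s`) × (cube of side `q_s`) × (bin of `w₀` of width `a_s`), tests `w - c`.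
Coordinates for `0 < ell`: index `0` = major coordinate `Z`, index `1` = minor coordinate `Y`; the palette variable is `v = Z'` (`kpPv`).
-/

set_option autoImplicit false

namespace Claimed.Agent.R252

open MeasureTheory Filter Topology
open Claimed.Agent.R255 (uf)
open scoped ENNReal BigOperators

noncomputable section

variable {v : KbVer}

/-- the fixed exponents of the tangent problem -/
structure KpPrm where
  /-- critical cap dimension `d_*` -/
  d : ℝ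
  /-- critical time rate -/
  k : ℝ
  /-- optimised narrowness (`0` in version 1) -/
  ell : ℝ
  /-- angular exponent -/
  S : ℝ

/-- the ranges of the exponents -/
structure KpPrm.Ok (p : KpPrm) : Prop where
  d_nonneg : 0 ≤ p.d
  d_lt : p.d < 1
  k_pos : 0 < p.k
  k_le : p.k ≤ 1
  ell_nonneg : 0 ≤ p.ell
  S_pos : 0 < p.S

/-- the `i`-th coordinate (junk `0`) -/
def kpCo (y : KbB v) (i : ℕ) : ℝ := if h : i < v.j then y ⟨i, h⟩ else 0

/-- the palette variable: `V` if `ell = 0`, the major velocity `(Z', 0)` if `0 < ell` -/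
def kpPv (p : KpPrm) (V : KbB v) : KbB v := if 0 < p.ell then fun i => if (i : ℕ) = 0 then V i else 0 else V

/-- the cube of the dyadic grid of requested width `β` with index `b` -/
def kpCube (β : ℝ) (b : Fin v.j → ℤ) : Set (KbB v) := {u | ∀ i, kbBin β (u i) = b i}

/-- **tangent data at one scale** (data only) -/
structure KpTan (v : KbVer) where
  /-- the problem normalised at the parent node; `Ev` = prepared path -/
  P : KbPb v
  /-- tangent resolution -/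
  N : ℝ
  /-- index of the last node -/
  G : ℕ
  /-- tangent depth of a node -/
  dep : ℕ → ℝ
  /-- the true labels at the nodes, in parent coordinates -/
  Q : ℕ → KbSys P
  /-- the packet at the preceding node -/
  up : ∀ m, (Q (m + 1)).C → (Q m).C
  /-- the fixed velocity palettes -/
  pal : P.W → Measure (KbB v)
  /-- the fixed reference weights of the end histories -/
  ref : (Q G).C → ℝ≥0∞
  /-- list knowledge at the original terminal observation, with exponent `r` -/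
  Act : ℕ → (D : Type) → P.Lab D → Prop

namespace KpTan

variable (X : KpTan v)

/-- thickness `a_s = N^{-s}` of a node -/
def a (m : ℕ) : ℝ := X.N ^ (-X.dep m)

/-- velocity of an incidence, in parent coordinates -/
def vl (γ : X.P.W) (x : X.P.Lam × ℝ) : KbB v := kbV (X.P.co γ x.1)

open Classical in
/-- the path label of an incidence at the node `m` -/
def lab (m : ℕ) : X.P.Lab (Option (X.Q m).C) := fun γ x =>
  if h : ∃ c, (X.Q m).wd c = γ ∧ x ∈ (X.Q m).S c then some h.choose else none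

/-- the finite-mesh point state `[(t, y, X)]_β` -/
def pt (β : ℝ) : X.P.Lab (ℤ × (Fin v.j → ℤ) × ℤ) := fun γ x =>
  (kbBin β x.2, (fun i => kbBin β ((X.P.bs γ x).2 i)), kbBin β (X.P.sig γ x))

/-- a residual of the prepared path: a measurable sub-selection -/
def Res (Rs : X.P.W → Set (X.P.Lam × ℝ)) : Prop := ∀ γ, MeasurableSet (Rs γ) ∧ Rs γ ⊆ X.P.Ev γ

/-- the closure rules of list knowledge -/
structure ActOk (β₀ : ℝ) : Prop where
  mono : ∀ r r' D ℓ, r ≤ r' → X.Act r D ℓ → X.Act r' D ℓ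
  pair : ∀ r r' D D' ℓ ℓ', X.Act r D ℓ → X.Act r' D' ℓ' → X.Act (r + r') (D × D') (X.P.lpair ℓ ℓ')
  map : ∀ r D D' ℓ (g : D → D'), Countable D → X.Act r D ℓ → X.Act r D' fun γ x => g (ℓ γ x)
  /-- functions of the parent and of the exact base -/
  base : ∀ D (g : X.P.W → ℝ × KbB v → D), (∀ γ d, MeasurableSet (g γ ⁻¹' {d})) → X.Act 1 D fun γ x => g γ (X.P.bs γ x)
  /-- two-valued data (signs) -/
  two : ∀ (ℓ : X.P.Lab Bool), X.P.LabMeas ℓ → X.Act 1 Bool ℓ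
  /-- path labels -/
  path : ∀ m ≤ X.G, X.Act 1 _ (X.lab m)
  /-- finite-mesh point states -/
  mesh : ∀ β, β₀ ≤ β → β ≤ 1 → X.Act 1 _ (X.pt β)

open Classical in
/-- **`prop:tangent-palette` at one scale**, tolerance `τ` (`K = N^τ`) -/
structure Ok (p : KpPrm) (τ : ℝ) : Prop where
  N_two : 2 ≤ X.N
  -- the parent problem
  wf : X.P.WF
  ntv : X.P.Ntv (X.N ^ τ)
  B_one : ∀ γ, X.P.B γ = 1
  /-- `λ_A^0 ≤ K ν_A × dt` : the success fraction of every RETAINED parent is `≥ 1/K`; an omitted parent stays a world, with empty prepared path (v2, 20:40Z) -/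
  succ : ∀ γ, X.P.mu γ Set.univ = 0 ∨ 1 ≤ ENNReal.ofReal (X.N ^ τ) * X.P.mu γ Set.univ
  -- the nodes
  dep_zero : 0 < X.dep 0 ∧ X.dep 0 ≤ τ
  dep_step : ∀ m < X.G, X.dep m < X.dep (m + 1) ∧ X.dep (m + 1) ≤ X.dep m + τ
  dep_end : 1 / τ ≤ X.dep X.G
  -- item (1): the true labels
  sys_wf : ∀ m ≤ X.G, (X.Q m).WF
  geo : ∀ m ≤ X.G, (X.Q m).Geo (X.N ^ τ) (X.a m)
  q_lo : ∀ m ≤ X.G, X.N ^ (-p.k * X.dep m - τ) ≤ (X.Q m).q
  q_hi : ∀ m ≤ X.G, (X.Q m).q ≤ X.N ^ (-p.k * X.dep m + τ)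
  J_lo : ∀ m ≤ X.G, ∀ c, (X.Q m).q ^ v.j * X.N ^ (-p.ell * X.dep m - τ) ≤ ((X.Q m).ch c).J
  J_hi : ∀ m ≤ X.G, ∀ c, ((X.Q m).ch c).J ≤ (X.Q m).q ^ v.j * X.N ^ (-p.ell * X.dep m + τ)
  full : ∀ m ≤ X.G, ∀ c, (X.Q m).q ≤ X.N ^ τ * kbMn ((X.Q m).ch c).D
  /-- major-coordinate fullness `‖D_s^T e_Z‖ ≥ q_s / K` -/
  major : 0 < p.ell → ∀ m ≤ X.G, ∀ c, (X.Q m).q ≤ X.N ^ τ * ∑ i : Fin v.j, ∑ k : Fin v.j, if (i : ℕ) = 0 then |((X.Q m).ch c).D i k| else 0
  nu_lo : ∀ m ≤ X.G, ∀ c, ENNReal.ofReal (X.N ^ (-p.d * X.dep m - τ) * ((X.Q m).ch c).J) ≤ (X.Q m).nuC c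
  nu_hi : ∀ m ≤ X.G, ∀ c, (X.Q m).nuC c ≤ ENNReal.ofReal (X.N ^ (-p.d * X.dep m + τ) * ((X.Q m).ch c).J)
  -- nesting; every incidence of the prepared path has a label at every node
  nest : ∀ m < X.G, ∀ c, (X.Q m).wd (X.up m c) = (X.Q (m + 1)).wd c ∧ (X.Q (m + 1)).I c ⊆ (X.Q m).I (X.up m c) ∧ (X.Q (m + 1)).A c ⊆ (X.Q m).A (X.up m c)
  path : ∀ m ≤ X.G, ∀ c, (X.Q m).S c = X.P.Ev ((X.Q m).wd c) ∩ (X.Q m).A c ×ˢ (X.Q m).I c
  cover : ∀ m ≤ X.G, ∀ γ, X.P.Ev γ ⊆ (X.Q m).sel γ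
  -- item (2): pure caps, per unit base volume
  cap_w : ∀ γ (w : ℝ), X.N ^ (-1 / τ) ≤ w → w ≤ 1 → ∀ (x₀ : ℝ) (Bz : Set (ℝ × KbB v)), MeasurableSet Bz →
    X.P.mu γ {x | X.P.bs γ x ∈ Bz ∧ X.P.hw γ x ∈ Set.Icc x₀ (x₀ + w)} ≤ ENNReal.ofReal (X.N ^ τ * w ^ p.d) * volume Bz
  cap_X : ∀ γ (w : ℝ), X.N ^ (-1 / τ) ≤ w → w ≤ 1 → ∀ (x₀ : ℝ) (Bz : Set (ℝ × KbB v)), MeasurableSet Bz →
    X.P.mu γ {x | X.P.bs γ x ∈ Bz ∧ X.P.sig γ x ∈ Set.Icc x₀ (x₀ + w)} ≤ ENNReal.ofReal (X.N ^ τ * w ^ p.d) * volume Bz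
  -- item (3): palettes and the joint ceiling (a03:palette-joint)
  pal_prob : ∀ γ, IsProbabilityMeasure (X.pal γ)
  pal_cap : ∀ γ (w : ℝ), X.N ^ (-1 / τ) ≤ w → w ≤ 1 → ∀ u₀ : KbB v, X.pal γ (Metric.closedBall u₀ w) ≤ ENNReal.ofReal (X.N ^ τ * w ^ p.S)
  ref_sum : ∀ γ, ∑ e, (if (X.Q X.G).wd e = γ then X.ref e else 0) ≤ 1
  ref_ge : ∀ e, (X.Q X.G).mC e ≤ X.ref e
  /-- the reference weight is a PRE-deletion mass of the raw path inside `A_e × I_e`, in units `≤ K ν_A × dt` (helper31, for `KsRef.Ok.ref_Q`) -/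
  ref_le : ∀ e, X.ref e ≤ ENNReal.ofReal (X.N ^ τ * (X.Q X.G).q) * (X.Q X.G).nuC e
  joint : ∀ (β : ℝ), X.N ^ (-1 / τ) ≤ β → β ≤ 1 → ∀ (e : (X.Q X.G).C) (b : Fin v.j → ℤ),
    X.P.mu ((X.Q X.G).wd e) ((X.Q X.G).S e ∩ {x | kpPv p (X.vl ((X.Q X.G).wd e) x) ∈ kpCube β b})
      ≤ ENNReal.ofReal (X.N ^ τ) * X.pal ((X.Q X.G).wd e) (kpCube β b) * X.ref e
  -- item (4): list knowledge at the original terminal observation
  act : X.ActOk (X.N ^ (-1 / τ))

/-! ## Candidates (Def `a03:candidates`) -/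

/-- **time-improvement candidate** of gain `g` in the packet `c` of the node `m`, slack `K`, mass counted in the residual `Rs` -/
def TimeCand (p : KpPrm) (Rs : X.P.W → Set (X.P.Lam × ℝ)) (m : ℕ) (c : (X.Q m).C) (g K : ℝ) : Prop :=
  ∃ (T : KbTest v) (A' : Set X.P.Lam) (S' : Set (X.P.Lam × ℝ)), KbAdm T ∧ MeasurableSet A' ∧ A' ⊆ (X.Q m).A c ∧ MeasurableSet S' ∧
    S' ⊆ Rs ((X.Q m).wd c) ∩ A' ×ˢ (X.Q m).I c ∧
    (∀ l ∈ A', ∀ t ∈ (X.Q m).I c, |kbX T (X.P.co ((X.Q m).wd c) l) t| ≤ K * (X.a m * X.N ^ (-g))) ∧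
    (∀ l ∈ A', ∀ t ∈ (X.Q m).I c, |kbX (kbDw T) (X.P.co ((X.Q m).wd c) l) t| ≤ K) ∧
    (∀ t y w, |kbDww T t y w| * (X.a m * X.N ^ (-g)) ≤ K) ∧
    (∀ x ∈ S', 1 ≤ K * |kbX (kbDw T) (X.P.co ((X.Q m).wd c) x.1) x.2|) ∧
    ENNReal.ofReal (X.N ^ (-p.d * g) * (X.Q m).q) * (X.Q m).nuC c ≤ ENNReal.ofReal K * X.P.mu ((X.Q m).wd c) S'

/-- **strip candidate** of gain `g` (`0 < ell < ∞`): a row `Y' ≈ r₀ + r₁ Z'` at precision `K N^{-ell s - g}` -/
def StripCand (p : KpPrm) (Rs : X.P.W → Set (X.P.Lam × ℝ)) (m : ℕ) (c : (X.Q m).C) (g K : ℝ) : Prop :=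
  ∃ (r₀ r₁ : ℝ) (A' : Set X.P.Lam), MeasurableSet A' ∧ A' ⊆ (X.Q m).A c ∧
    (∀ l ∈ A', |kpCo (kbV (X.P.co ((X.Q m).wd c) l)) 1 - (r₀ + r₁ * kpCo (kbV (X.P.co ((X.Q m).wd c) l)) 0)| ≤ K * X.N ^ (-p.ell * X.dep m - g)) ∧
    ENNReal.ofReal (X.Q m).q * (X.Q m).nuC c ≤ ENNReal.ofReal K * X.P.mu ((X.Q m).wd c) (Rs ((X.Q m).wd c) ∩ A' ×ˢ (X.Q m).I c)

/-- a candidate of one of the two types at depth `≤ D₀` with gain in `[c₀, C₀]` -/
def Cand (p : KpPrm) (Rs : X.P.W → Set (X.P.Lam × ℝ)) (D₀ c₀ C₀ K : ℝ) : Prop :=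
  ∃ m ≤ X.G, X.dep m ≤ D₀ ∧ ∃ (c : (X.Q m).C) (g : ℝ), c₀ ≤ g ∧ g ≤ C₀ ∧ (X.TimeCand p Rs m c g K ∨ (0 < p.ell ∧ X.StripCand p Rs m c g K))

/-! ## Breadth (`a03:breadth`) -/

/-- the conditional velocity law of the state `(γ, d)` in the residual puts mass `≥ κ` within `w` of an affine line -/
def NarrowAt (Rs : X.P.W → Set (X.P.Lam × ℝ)) {D : Type} (ℓ : X.P.Lab D) (κ w : ℝ) (γ : X.P.W) (d : D) : Prop :=
  ∃ (n : KbB v) (b : ℝ), n ⬝ᵥ n = 1 ∧
    ENNReal.ofReal κ * X.P.mu γ (Rs γ ∩ ℓ γ ⁻¹' {d}) ≤ X.P.mu γ (Rs γ ∩ ℓ γ ⁻¹' {d} ∩ {x | |n ⬝ᵥ X.vl γ x - b| ≤ w})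

/-- at most `K` values of the state per end history -/
def Amb (Rs : X.P.W → Set (X.P.Lam × ℝ)) {D : Type} (ℓ : X.P.Lab D) (K : ℝ) : Prop :=
  ∀ e : (X.Q X.G).C, ∃ L : Finset D, (L.card : ℝ) ≤ K ∧ ∀ x ∈ Rs ((X.Q X.G).wd e) ∩ (X.Q X.G).S e, ℓ ((X.Q X.G).wd e) x ∈ L

/-- **breadth at one scale**: the narrow states carry at most `ε` of the reference path -/
def Brd (κ u ε : ℝ) (r : ℕ) (K : ℝ) : Prop :=
  ∀ (Rs : X.P.W → Set (X.P.Lam × ℝ)) (D : Type) (ℓ : X.P.Lab D), X.Res Rs → X.P.LabMeas ℓ → X.Act r D ℓ → X.Amb Rs ℓ K →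
    X.P.mass (fun γ => Rs γ ∩ {x | X.NarrowAt Rs ℓ κ (X.N ^ (-u)) γ (ℓ γ x)}) ≤ ENNReal.ofReal ε * X.P.tot

end KpTan

/-! ## The sequence level (stages `n` of the guarded diagonal, read along `uf`) -/

/-- tangent data along the diagonal -/
def KpSeqOk (R : KbRes) (X : ℕ → KpTan v) (p : KpPrm) : Prop :=
  (∀ n, (X n).N = R.N n) ∧ ∀ τ : ℝ, 0 < τ → ∀ᶠ n in uf, (X n).Ok p τ

/-- a substantial residual of the reference path -/
def KpSubst (X : ℕ → KpTan v) (Rs : ∀ n, (X n).P.W → Set ((X n).P.Lam × ℝ)) : Prop :=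
  (∀ n, (X n).Res (Rs n)) ∧ ∃ η₀ : ℝ, 0 < η₀ ∧ ∀ᶠ n in uf, ENNReal.ofReal η₀ * (X n).P.tot ≤ (X n).P.mass (Rs n)

/-- **the candidate hypothesis** of `prop:candidate-upgrade`: every substantial residual supplies a candidate at bounded depth, with gain bounded above and below, and subpower slack -/
def KpCandHyp (R : KbRes) (X : ℕ → KpTan v) (p : KpPrm) : Prop :=
  ∀ Rs, KpSubst X Rs → ∃ (D₀ c₀ C₀ : ℝ) (K : ℕ → ℝ), 0 < c₀ ∧ KbSubP R K ∧ ∀ᶠ n in uf, (X n).Cand p (Rs n) D₀ c₀ C₀ (K n)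

/-- **breadth before sparse selections** -/
def KpBreadth (X : ℕ → KpTan v) : Prop :=
  ∀ (κ u ε : ℝ) (r : ℕ), 0 < κ → 0 < u → 0 < ε → ∃ τ : ℝ, 0 < τ ∧ ∀ᶠ n in uf, (X n).Brd κ u ε r ((X n).N ^ τ)

end

end Claimed.Agent.R252
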