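import Claimed.Agent.R252.S4B.SamContract
import Claimed.Agent.R252.S4T.Contract

/-!
# ROW 252 (S0492), unit S4 (chief helper269), file 5: THE CUT OF `K4bHubPre` (= what remains of `KpHubSam` after helper127's `S4B/SamContract`).      CONTRACT file: hubs are `def .. : Prop`, the glue is proved.

STATUS (20:50Z): the architect of `K4bHubPre` is helper294 (`S4C/ChgDefs`, `ChainDefs`, `Info2Contract`: operations `k4cChg`, `k4cQ`, `k4cBack`, chains `K4cCh`).   IN FORCE here: section 2 (`KpTan.GeoOk`, `KpTan.Ana`, `KpSam.GeoOk`, `kp_tan_ok`, `kp_sam_ok`) and `KpHubPre`.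
Sections 1, 3-5 (`KbPb.lin`, `KpStg`, `KpWin`, the three hubs) are a compile-checked SPECIFICATION of the cut, to be restated by helper294 over his operations; do NOT prove lemmas about `KbPb.lin`, `linF`, `linB`.

04-critical-paths.tex l.351-857.   THREE HUBS, each with its own architect:
* `KpHubWin`  (sequence level, over `Base`):  `KpCrit` + a stage `g : KpStg`  ⟹  a RAW WINDOW PACKAGE `W : KpWin v`, `W.Ok p η g δ`:
      `F` = the remaining problem at the parent node of the chosen entropy window (Base coordinates, hidden unit `B ≠ 1`), its profile, both exclusions;   `Q k m` = the nodes of the window as CUMULATIVE systems of `F`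
      (known atlases, saturated, homogeneous narrowness, nested, full);   `Pth` = the reference path;   `fr, fri` = bounded frames to the major / minor coordinates of the parent (`1` if `ell = 0`);
      the angular ceiling and the information bound for the palette variable `v = kpPv p (fr V)`.
      Tools: chain of lifts (`R252/Norm`, k2n_ kit), ancestry (root velocity along the path), L2.12 `kb_axis`, chain rule for nested histories (`S4C/InfoContract`).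
* `KpHubGeo`  (plumbing):  for EVERY dense measurable part `Ev` of the path the problem `D.F = (F.lin fr fri).sel Ev` in CONSUMER COORDINATES (`B = 1`, index `0` = major coordinate) is `Ok`, inherits both exclusions, and all GEOMETRIC fields of
      `KpSam.Ok`, `KpTan.Ok` (`KpSam.GeoOk`) hold eventually, with ONE actual subpower factor `Kp` and one complexity exponent `Mp`.
* `KpHubAna`  (analysis: masks, palettes, likelihood truncation):  there are `Ev, pal, ref` with the ANALYTIC fields `KpTan.Ana` (`succ, cap_w, cap_X, pal_*, ref_*, joint`).      Tools: `S4C/CeilContract`, `S4C/InfoContract`, `S4T` (`k4_trunc`).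
GLUE: `kp_hub_pre : KpHubWin → KpHubGeo → KpHubAna → K4bHubPre'`  (+ the leaf `kp_stage_ex`).
-/

set_option autoImplicit false

namespace Claimed.Agent.R252

open MeasureTheory Filter Topology
open Claimed.Agent.R255 (uf)
open scoped ENNReal BigOperators

noncomputable section

variable {v : KbVer}

/-! ## 1. Consumer coordinates -/

/-- **consumer coordinates**: linear change `y ↦ fr γ y` of the base, hidden coordinate `w ↦ B γ w` (new unit `B = 1`); same worlds, weights, trajectories, priors, events -/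
def KbPb.lin (P : KbPb v) (fr fri : P.W → Matrix (Fin v.j) (Fin v.j) ℝ) : KbPb v :=
  { P with
    co := fun γ l => ((fr γ).mulVec (P.co γ l).1, (fr γ).mulVec (P.co γ l).2.1, fun i => P.B γ * (P.co γ l).2.2 i)
    B := fun _ => 1
    Pst := fun γ t y w => P.Pst γ t ((fri γ).mulVec y) (w / P.B γ) }

/-- a chart in consumer coordinates -/
def KbChart.lin (ch : KbChart v) (M Mi : Matrix (Fin v.j) (Fin v.j) ℝ) (B : ℝ) : KbChart v where
  y0 := M.mulVec ch.y0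
  y1 := M.mulVec ch.y1
  D := M * ch.D
  Di := ch.Di * Mi
  T := fun t y w => ch.T t (Mi.mulVec y) (w / B)

namespace KbSys

variable {P : KbPb v}

/-- a system of `P` in consumer coordinates, with the selection `Ev ∩ A × I` -/
def linF (Y : KbSys P) (fr fri : P.W → Matrix (Fin v.j) (Fin v.j) ℝ) (Ev : P.W → Set (P.Lam × ℝ)) : KbSys ((P.lin fr fri).sel Ev) where
  n := Y.n
  C := Y.C
  fC := Y.fC
  wd := Y.wd
  iv := Y.iv
  A := Y.A
  S := fun c => (P.Ev (Y.wd c) ∩ Ev (Y.wd c)) ∩ Y.A c ×ˢ kbI Y.n (Y.iv c)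
  ch := fun c => (Y.ch c).lin (fr (Y.wd c)) (fri (Y.wd c)) (P.B (Y.wd c))

/-- a system in consumer coordinates, read in the coordinates of `P` -/
def linB {fr fri : P.W → Matrix (Fin v.j) (Fin v.j) ℝ} {Ev : P.W → Set (P.Lam × ℝ)} (Y : KbSys ((P.lin fr fri).sel Ev)) : KbSys P where
  n := Y.n
  C := Y.C
  fC := Y.fC
  wd := Y.wd
  iv := Y.iv
  A := Y.A
  S := Y.S
  ch := fun c => (Y.ch c).lin (fri (Y.wd c)) (fr (Y.wd c)) (P.B (Y.wd c))⁻¹

end KbSys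

/-- consumer coordinates, sequence level -/
def KbEx.lin (E : KbEx v) (fr fri : ∀ k, (E.P k).W → Matrix (Fin v.j) (Fin v.j) ℝ) : KbEx v :=
  { E with P := fun k => (E.P k).lin (fr k) (fri k) }

/-- an integer bin, clamped to `2 M + 1` values -/
def kpClamp (M : ℕ) (z : ℤ) : Fin (2 * M + 1) := ⟨(max 0 (min (2 * (M : ℤ)) (z + M))).toNat, by omega⟩

/-- the bin of mesh `b` of the palette variable `kpPv p (fr V)` -/
def kpVb (P : KbPb v) (p : KpPrm) (fr : P.W → Matrix (Fin v.j) (Fin v.j) ℝ) (b : ℝ) : P.Lab (Fin v.j → ℤ) :=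
  fun γ x i => kbBin b (kpPv p ((fr γ).mulVec (kbV (P.co γ x.1))) i)

/-- the parent weights `p_A` of a selection -/
def kpWt (P : KbPb v) (Ev : P.W → Set (P.Lam × ℝ)) (γ : P.W) : ℝ := (P.om γ * P.mu γ (Ev γ) / P.mass Ev).toReal

open Classical in
/-- the conditional joint law of (label of `Y`, finite label `ℓ`) in the parent `γ` -/
def kpJt (P : KbPb v) (Ev : P.W → Set (P.Lam × ℝ)) (Y : KbSys P) {β : Type} (ℓ : P.Lab β) (γ : P.W) (e : Y.C) (b : β) : ℝ :=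
  if Y.wd e = γ then (P.mu γ (Ev γ ∩ Y.S e ∩ ℓ γ ⁻¹' {b}) / P.mu γ (Ev γ)).toReal else 0

/-! ## 2. The two halves of `KpTan.Ok` and of `KpSam.Ok` -/

namespace KpTan

variable (X : KpTan v)

open Classical in
/-- the GEOMETRIC fields of `KpTan.Ok` (verbatim) -/
structure GeoOk (p : KpPrm) (τ : ℝ) : Prop where
  N_two : 2 ≤ X.N
  -- the parent problem
  wf : X.P.WF
  ntv : X.P.Ntv (X.N ^ τ)
  B_one : ∀ γ, X.P.B γ = 1
  -- the nodes
  dep_zero : 0 < X.dep 0 ∧ X.dep 0 ≤ τ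
  dep_step : ∀ m < X.G, X.dep m < X.dep (m + 1) ∧ X.dep (m + 1) ≤ X.dep m + τ
  dep_end : 1 / τ ≤ X.dep X.G
  -- item (1): the true labels
  sys_wf : ∀ m ≤ X.G, (X.Q m).WF
  geo : ∀ m ≤ X.G, (X.Q m).Geo (X.N ^ τ) (X.a m)
  q_lo : ∀ m ≤ X.G, X.N ^ (-p.k * X.dep m - τ) ≤ (X.Q m).q
  q_hi : ∀ m ≤ X.G, (X.Q m).q ≤ X.N ^ (-p.k * X.dep m + τ)
  J_lo : ∀ m ≤ X.G, ∀ c, (X.Q m).q ^ v.j * X.N ^ (-p.ell * X.dep m - τ) ≤ ((X.Q m).ch c).J
  J_hi : ∀ m ≤ X.G, ∀ c, ((X.Q m).ch c).J ≤ (X.Q m).q ^ v.j * X.N ^ (-p.ell * X.dep m + τ)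
  full : ∀ m ≤ X.G, ∀ c, (X.Q m).q ≤ X.N ^ τ * kbMn ((X.Q m).ch c).D
  /-- major-coordinate fullness `‖D_s^T e_Z‖ ≥ q_s / K` -/
  major : 0 < p.ell → ∀ m ≤ X.G, ∀ c, (X.Q m).q ≤ X.N ^ τ * ∑ i : Fin v.j, ∑ k : Fin v.j, if (i : ℕ) = 0 then |((X.Q m).ch c).D i k| else 0
  nu_lo : ∀ m ≤ X.G, ∀ c, ENNReal.ofReal (X.N ^ (-p.d * X.dep m - τ) * ((X.Q m).ch c).J) ≤ (X.Q m).nuC c
  nu_hi : ∀ m ≤ X.G, ∀ c, (X.Q m).nuC c ≤ ENNReal.ofReal (X.N ^ (-p.d * X.dep m + τ) * ((X.Q m).ch c).J)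
  -- nesting; every incidence of the prepared path has a label at every node
  nest : ∀ m < X.G, ∀ c, (X.Q m).wd (X.up m c) = (X.Q (m + 1)).wd c ∧ (X.Q (m + 1)).I c ⊆ (X.Q m).I (X.up m c) ∧ (X.Q (m + 1)).A c ⊆ (X.Q m).A (X.up m c)
  path : ∀ m ≤ X.G, ∀ c, (X.Q m).S c = X.P.Ev ((X.Q m).wd c) ∩ (X.Q m).A c ×ˢ (X.Q m).I c
  cover : ∀ m ≤ X.G, ∀ γ, X.P.Ev γ ⊆ (X.Q m).sel γ
  -- item (4): list knowledge at the original terminal observation
  act : X.ActOk (X.N ^ (-1 / τ))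

open Classical in
/-- the ANALYTIC fields of `KpTan.Ok` (verbatim) -/
structure Ana (p : KpPrm) (τ : ℝ) : Prop where
  /-- `λ_A^0 ≤ K ν_A × dt` : the success fraction of every RETAINED parent is `≥ 1/K`; an omitted parent stays a world, with empty prepared path (v2, 20:40Z) -/
  succ : ∀ γ, X.P.mu γ Set.univ = 0 ∨ 1 ≤ ENNReal.ofReal (X.N ^ τ) * X.P.mu γ Set.univ
  -- item (2): pure caps, per unit base volume
  cap_w : ∀ γ (w : ℝ), X.N ^ (-1 / τ) ≤ w → w ≤ 1 → ∀ (x₀ : ℝ) (Bz : Set (ℝ × KbB v)), MeasurableSet Bz →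
    X.P.mu γ {x | X.P.bs γ x ∈ Bz ∧ X.P.hw γ x ∈ Set.Icc x₀ (x₀ + w)} ≤ ENNReal.ofReal (X.N ^ τ * w ^ p.d) * volume Bz
  cap_X : ∀ γ (w : ℝ), X.N ^ (-1 / τ) ≤ w → w ≤ 1 → ∀ (x₀ : ℝ) (Bz : Set (ℝ × KbB v)), MeasurableSet Bz →
    X.P.mu γ {x | X.P.bs γ x ∈ Bz ∧ X.P.sig γ x ∈ Set.Icc x₀ (x₀ + w)} ≤ ENNReal.ofReal (X.N ^ τ * w ^ p.d) * volume Bz
  -- item (3): palettes and the joint ceiling (a03:palette-joint)
  pal_prob : ∀ γ, IsProbabilityMeasure (X.pal γ)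
  pal_cap : ∀ γ (w : ℝ), X.N ^ (-1 / τ) ≤ w → w ≤ 1 → ∀ u₀ : KbB v, X.pal γ (Metric.closedBall u₀ w) ≤ ENNReal.ofReal (X.N ^ τ * w ^ p.S)
  ref_sum : ∀ γ, ∑ e, (if (X.Q X.G).wd e = γ then X.ref e else 0) ≤ 1
  ref_ge : ∀ e, (X.Q X.G).mC e ≤ X.ref e
  /-- the reference weight is a PRE-deletion mass of the raw path inside `A_e × I_e`, in units `≤ K ν_A × dt` (helper31, for `KsRef.Ok.ref_Q`) -/
  ref_le : ∀ e, X.ref e ≤ ENNReal.ofReal (X.N ^ τ * (X.Q X.G).q) * (X.Q X.G).nuC e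
  joint : ∀ (β : ℝ), X.N ^ (-1 / τ) ≤ β → β ≤ 1 → ∀ (e : (X.Q X.G).C) (b : Fin v.j → ℤ),
    X.P.mu ((X.Q X.G).wd e) ((X.Q X.G).S e ∩ {x | kpPv p (X.vl ((X.Q X.G).wd e) x) ∈ kpCube β b})
      ≤ ENNReal.ofReal (X.N ^ τ) * X.pal ((X.Q X.G).wd e) (kpCube β b) * X.ref e

end KpTan

theorem kp_tan_ok {X : KpTan v} {p : KpPrm} {τ : ℝ} (hg : X.GeoOk p τ) (ha : X.Ana p τ) : X.Ok p τ :=
  { N_two := hg.N_two
    wf := hg.wf
    ntv := hg.ntv
    B_one := hg.B_one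
    succ := ha.succ
    dep_zero := hg.dep_zero
    dep_step := hg.dep_step
    dep_end := hg.dep_end
    sys_wf := hg.sys_wf
    geo := hg.geo
    q_lo := hg.q_lo
    q_hi := hg.q_hi
    J_lo := hg.J_lo
    J_hi := hg.J_hi
    full := hg.full
    major := hg.major
    nu_lo := hg.nu_lo
    nu_hi := hg.nu_hi
    nest := hg.nest
    path := hg.path
    cover := hg.cover
    cap_w := ha.cap_w
    cap_X := ha.cap_X
    pal_prob := ha.pal_prob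
    pal_cap := ha.pal_cap
    ref_sum := ha.ref_sum
    ref_ge := ha.ref_ge
    ref_le := ha.ref_le
    joint := ha.joint
    act := hg.act }

/-- the fields of `KpSam.Ok` which are neither analytic, nor the guard, nor the three numerical conditions of the diagonal (verbatim) -/
structure KpSam.GeoOk (s : KpSam v) (p : KpPrm) (τ : ℝ) : Prop where
  tan : s.tan.GeoOk p τ
  -- the diagonal
  eps_pos : 0 < s.eps
  eps_le : s.eps ≤ τ
  Lr_lo : 1 / 8 ≤ s.Lr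
  Lr_hi : s.Lr ≤ 1
  win : s.eps * s.dep s.G ≤ τ
  th_pos : 0 < s.th
  th_le : s.th ≤ τ * s.eps
  thc_pos : 0 < s.thc
  thc_le : s.thc ≤ τ * s.eps
  stage : 1 / τ ≤ (s.n : ℝ)
  -- ACTUAL bounds of the exact problem and of its path
  Kp_one : 2 ≤ s.Kp
  ntv : s.P.Ntv s.Kp
  tmp : s.P.Tmp (s.N0 ^ s.Mp)
  geo : ∀ m ≤ s.G, (s.Q m).Geo s.Kp (s.N0 ^ (-(s.eps * s.dep m)))
  known : ∀ m ≤ s.G, (s.Q m).Known (s.P.hid s.aL) s.Kp
  sys_tmp : ∀ m ≤ s.G, (s.Q m).Tmp (s.N0 ^ s.Mp)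
  full : ∀ m ≤ s.G, ∀ c, (s.Q m).q ≤ s.Kp * kbMn ((s.Q m).ch c).D
  major : 0 < p.ell → ∀ m ≤ s.G, ∀ c, (s.Q m).q ≤ s.Kp * ∑ i : Fin v.j, ∑ k : Fin v.j, if (i : ℕ) = 0 then |((s.Q m).ch c).D i k| else 0
  /-- the nodes are cheap -/
  cheap : ∀ m ≤ s.G, s.N0 ^ (-(p.k * (s.eps * s.dep m) + s.thc)) ≤ (s.Q m).q
  -- complexity guard (a03:complexity-guard)
  Mp_one : 1 ≤ s.Mp
  Mg_ge : (2 : ℝ) ^ ((s.Mp + s.n) ^ 2) ≤ s.Mg

theorem kp_sam_ok {s : KpSam v} {p : KpPrm} {τ : ℝ} (hg : s.GeoOk p τ) (ha : s.tan.Ana p τ) (hgu : s.Guard p) (h1 : s.Ks ≤ (s.N0 ^ s.eps) ^ τ)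
    (h2 : (s.G : ℝ) + 1 ≤ τ * Real.log s.N0) (h3 : s.Kp * Real.log s.N0 ≤ τ * s.N0) : s.Ok p τ :=
  { tan := kp_tan_ok hg.tan ha
    guard := hgu
    eps_pos := hg.eps_pos
    eps_le := hg.eps_le
    Lr_lo := hg.Lr_lo
    Lr_hi := hg.Lr_hi
    win := hg.win
    th_pos := hg.th_pos
    th_le := hg.th_le
    thc_pos := hg.thc_pos
    thc_le := hg.thc_le
    stage := hg.stage
    slack := h1
    nodes := h2
    small := h3
    Kp_one := hg.Kp_one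
    ntv := hg.ntv
    tmp := hg.tmp
    geo := hg.geo
    known := hg.known
    sys_tmp := hg.sys_tmp
    full := hg.full
    major := hg.major
    cheap := hg.cheap
    Mp_one := hg.Mp_one
    Mg_ge := hg.Mg_ge }

/-! ## 3. Stages -/

/-- **the constants of one stage**, chosen before the exact problem -/
structure KpStg where
  /-- the stage `n` -/
  n : ℕ
  /-- tangent depth unit `ε_n` -/
  eps : ℝ
  /-- index of the last node of a window -/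
  G : ℕ
  /-- target tangent depths of the nodes of a window -/
  σ : ℕ → ℝ
  /-- the finest velocity mesh is `N^{-U}` -/
  U : ℝ
  /-- allowed information, in units of `log N` -/
  ι : ℝ
  /-- tolerance of all exponents, in the units of `N₀` -/
  ζ : ℝ

/-- the stage fits the tolerance `τ` -/
structure KpStg.Fit (g : KpStg) (p : KpPrm) (η τ : ℝ) : Prop where
  stage : 1 / τ ≤ (g.n : ℝ)
  eps_pos : 0 < g.eps
  eps_le : g.eps ≤ τ
  σ_zero : τ / 4 ≤ g.σ 0 ∧ g.σ 0 ≤ τ / 2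
  σ_step : ∀ m < g.G, τ / 4 ≤ g.σ (m + 1) - g.σ m ∧ g.σ (m + 1) - g.σ m ≤ τ / 2
  σ_end : 1 / τ + 1 ≤ g.σ g.G
  U_ge : 1 / τ + 2 ≤ g.U
  /-- the window and the velocity scales are short in the units of `N₀` -/
  deep : g.eps * (g.σ g.G + g.U + 4) ≤ τ / 32
  ang : g.eps * (g.U + 4) ≤ η / 16
  anc : 0 < p.ell → g.eps * (g.U + 4) ≤ p.ell / 16
  ι_pos : 0 < g.ι
  ι_le : g.ι ≤ τ / 64
  /-- there is room for `≥ 4 (U + 4) / ι` disjoint windows in the depths `[1/4, 1/2]` -/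
  many : 64 * (g.U + 4) * (g.eps * (g.σ g.G + 2)) ≤ g.ι
  ζ_pos : 0 < g.ζ
  ζ_le : g.ζ ≤ g.eps * τ / 64

/-! ## 4. The raw window package -/

/-- **a raw window** (data only): everything in the Base coordinates of `F` -/
structure KpWin (v : KbVer) where
  /-- the remaining problem at the parent node -/
  F : KbEx v
  /-- its profile -/
  f : ℝ → ℝ → ℝ
  G : ℕ
  /-- the nodes of the window: cumulative systems of `F` -/
  Q : ∀ k, ℕ → KbSys (F.P k)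
  up : ∀ k m, (Q k (m + 1)).C → (Q k m).C
  /-- depth, time cost, narrowness, saturation exponent of a node (units of `N₀`) -/
  ρ : ℕ → ℝ
  h : ℕ → ℝ
  x : ℕ → ℝ
  e : ℕ → ℝ
  /-- the reference path -/
  Pth : F.Sel
  /-- frames to the major / minor coordinates of the parents -/
  fr : ∀ k, (F.P k).W → Matrix (Fin v.j) (Fin v.j) ℝ
  fri : ∀ k, (F.P k).W → Matrix (Fin v.j) (Fin v.j) ℝ
  /-- range of the finest velocity bins -/
  Mb : ℕ → ℕ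

namespace KpWin

variable (W : KpWin v)

/-- a node as a sequence of systems -/
def nd (m : ℕ) : W.F.Sys := fun k => W.Q k m

/-- the finest bins of the palette variable, mesh `N^{-U} = N₀^{-ε U}` -/
def vb (p : KpPrm) (g : KpStg) (k : ℕ) : (W.F.P k).Lab (Fin v.j → ℤ) := kpVb (W.F.P k) p (W.fr k) (W.F.a (g.eps * g.U) k)

/-- **the raw window package** -/
structure Ok (p : KpPrm) (η : ℝ) (g : KpStg) (δ : ℝ) : Prop where
  G_eq : W.G = g.G
  -- the problem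
  cap : ∃ d' : ℝ, d' ≤ p.d + g.ζ ∧ W.F.Cap d' p.S η W.f
  L_lo : 1 / 8 ≤ W.F.L
  L_hi : W.F.L ≤ 1
  prof : ∀ r ∈ Set.Icc (0 : ℝ) W.F.L, |W.f r 0 - p.d * r| ≤ g.ζ
  ex1 : KpExcl1 W.F p.k g.ζ
  ex2 : v = KbVer.two → KpExcl2 W.F p.k p.ell δ g.ζ
  -- the nodes
  atl : ∀ m ≤ W.G, W.F.IsAtlas (W.nd m) (W.ρ m) (W.h m)
  sat : ∀ m ≤ W.G, W.F.IsSat (W.nd m) (W.e m)
  nar : v = KbVer.two → ∀ m ≤ W.G, W.F.Narrow (W.nd m) (W.x m)
  ρ_near : ∀ m ≤ W.G, |W.ρ m - g.eps * g.σ m| ≤ g.ζ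
  h_near : ∀ m ≤ W.G, |W.h m - p.k * W.ρ m| ≤ δ / 2
  x_near : v = KbVer.two → ∀ m ≤ W.G, |W.x m - p.ell * W.ρ m| ≤ g.ζ
  e_near : ∀ m ≤ W.G, |W.e m - p.d * W.ρ m| ≤ g.ζ
  nest : ∀ᶠ k in uf, ∀ m < W.G, ∀ c, (W.Q k m).wd (W.up k m c) = (W.Q k (m + 1)).wd c ∧ (W.Q k (m + 1)).I c ⊆ (W.Q k m).I (W.up k m c) ∧
    (W.Q k (m + 1)).A c ⊆ (W.Q k m).A (W.up k m c)
  /-- L2.12, after pruning of whole labels -/
  full : ∀ τ : ℝ, 0 < τ → ∀ᶠ k in uf, ∀ m ≤ W.G, ∀ c, (W.Q k m).q ≤ W.F.R.N k ^ τ * kbMn ((W.Q k m).ch c).D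
  -- the reference path
  dense : W.F.Dense W.Pth
  pth : ∀ᶠ k in uf, ∀ m ≤ W.G, ∀ γ, W.Pth k γ ⊆ (W.Q k m).sel γ
  -- the frames
  fr_inv : ∀ k γ, W.fr k γ * W.fri k γ = 1
  fr_bd : ∀ τ : ℝ, 0 < τ → ∀ᶠ k in uf, ∀ γ, kbMn (W.fr k γ) ≤ W.F.R.N k ^ τ ∧ kbMn (W.fri k γ) ≤ W.F.R.N k ^ τ
  fr_one : p.ell = 0 → ∀ k γ, W.fr k γ = 1 ∧ W.fri k γ = 1
  /-- major-coordinate fullness `‖D_s^T e_Z‖ ≥ q_s / K_path` (04 l.591-612) -/
  major : 0 < p.ell → ∀ τ : ℝ, 0 < τ → ∀ᶠ k in uf, ∀ m ≤ W.G, ∀ c,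
    (W.Q k m).q ≤ W.F.R.N k ^ τ * ∑ i : Fin v.j, ∑ l : Fin v.j, if (i : ℕ) = 0 then |(W.fr k ((W.Q k m).wd c) * ((W.Q k m).ch c).D) i l| else 0
  /-- the angular ceiling for the palette variable, against the terminal density (04 l.572-588) -/
  ang : ∀ u : ℝ, 0 < u → u ≤ g.eps * (g.U + 2) →
    W.F.TypUp (fun k => (W.F.P k).lpair ((W.F.P k).hid (W.F.a W.F.L k)) (kpVb (W.F.P k) p (W.fr k) (W.F.a u k))) (W.f W.F.L 0 + p.S * u)
  -- the entropy window (04 l.643-672)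
  rng : ∀ᶠ k in uf, ∀ γ, ∀ x ∈ W.Pth k γ, ∀ i, |W.vb p g k γ x i| ≤ (W.Mb k : ℤ)
  info : ∀ᶠ k in uf, k4Info (kpWt (W.F.P k) (W.Pth k)) (kpJt (W.F.P k) (W.Pth k) (W.Q k W.G) fun γ x i => kpClamp (W.Mb k) (W.vb p g k γ x i))
    ≤ g.ι * (g.eps * Real.log (W.F.R.N k))

/-- an admissible prepared selection: a measurable part of the path which keeps a quarter of it -/
def Adm (Ev : W.F.Sel) : Prop :=
  ∀ᶠ k in uf, (∀ γ, MeasurableSet (Ev k γ) ∧ Ev k γ ⊆ W.Pth k γ) ∧ (W.F.P k).mass (W.Pth k) ≤ 4 * (W.F.P k).mass (Ev k)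

end KpWin

/-- the choices of the preparation -/
structure KpCh (W : KpWin v) where
  /-- the prepared path -/
  Ev : W.F.Sel
  pal : ∀ k, (W.F.P k).W → Measure (KbB v)
  ref : ∀ k, (W.Q k W.G).C → ℝ≥0∞
  Kp : ℕ → ℝ
  Mp : ℝ

/-- **the stage data of a prepared window**, in consumer coordinates -/
def KpWin.pre (W : KpWin v) (g : KpStg) (δ : ℝ) (c : KpCh W) : K4bPre v where
  F := (W.F.lin W.fr W.fri).sel c.Ev
  eps := g.eps
  G := W.G
  dep := fun m => W.ρ m / g.eps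
  Q := fun k m => (W.Q k m).linF (W.fr k) (W.fri k) (c.Ev k)
  up := W.up
  pal := c.pal
  ref := c.ref
  Kp := c.Kp
  n := g.n
  th := 2 * g.ζ
  thc := δ
  Mp := c.Mp
  Mg := 2 ^ ((c.Mp + g.n) ^ 2)

/-! ## 5. The hubs -/

/-- **HUB WIN** (04 l.351-372, 591-612, 643-672): chain of lifts, ancestry, fullness prunings, entropy window -/
def KpHubWin : Prop :=
  ∀ (v : KbVer) (S η τ : ℝ) (p : KpPrm) (g : KpStg), 0 < η → p.Ok → p.S = S → (v = KbVer.one → p.ell = 0) → KpCrit v S η p → 0 < τ → τ ≤ 1 → g.Fit p η τ →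
    ∃ (δ : ℝ) (W : KpWin v), 0 < δ ∧ δ ≤ g.ζ ∧ W.Ok p η g δ

/-- **HUB GEO** (consumer coordinates; 04 l.538-552, 674-735, 823-832) -/
def KpHubGeo : Prop :=
  ∀ (v : KbVer) (η τ δ : ℝ) (p : KpPrm) (g : KpStg) (W : KpWin v), 0 < η → p.Ok → (v = KbVer.one → p.ell = 0) → 0 < τ → τ ≤ 1 → g.Fit p η τ → 0 < δ → δ ≤ g.ζ →
    W.Ok p η g δ → ∀ Ev : W.F.Sel, W.Adm Ev → ∃ (Kp : ℕ → ℝ) (Mp : ℝ), ∀ pal ref,
      (W.pre g δ ⟨Ev, pal, ref, Kp, Mp⟩).F.Ok ∧ KbSubP (W.pre g δ ⟨Ev, pal, ref, Kp, Mp⟩).F.R Kp ∧ KpExcl1 (W.pre g δ ⟨Ev, pal, ref, Kp, Mp⟩).F p.k g.ζ ∧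
      (v = KbVer.two → KpExcl2 (W.pre g δ ⟨Ev, pal, ref, Kp, Mp⟩).F p.k p.ell δ g.ζ) ∧ ∀ᶠ k in uf, ((W.pre g δ ⟨Ev, pal, ref, Kp, Mp⟩).sam k).GeoOk p τ

/-- **HUB ANA** (masks, palettes, likelihood truncation; 04 l.553-590, 614-642, 858-925) -/
def KpHubAna : Prop :=
  ∀ (v : KbVer) (η τ δ : ℝ) (p : KpPrm) (g : KpStg) (W : KpWin v), 0 < η → p.Ok → (v = KbVer.one → p.ell = 0) → 0 < τ → τ ≤ 1 → g.Fit p η τ → 0 < δ → δ ≤ g.ζ →
    W.Ok p η g δ → ∃ (Ev : W.F.Sel) (pal : ∀ k, (W.F.P k).W → Measure (KbB v)) (ref : ∀ k, (W.Q k W.G).C → ℝ≥0∞), W.Adm Ev ∧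
      ∀ (Kp : ℕ → ℝ) (Mp : ℝ), ∀ᶠ k in uf, ((W.pre g δ ⟨Ev, pal, ref, Kp, Mp⟩).sam k).tan.Ana p τ

/-- **LEAF L-252-S4-STAGE** (~120 l.).  `n := ⌈1/τ⌉₊`, `σ m := (m + 1) τ / 2`, `G := ⌈2 (1/τ + 1) / τ⌉₊`, `U := 1/τ + 2`, `ι := τ / 64`, then `eps` = the minimum of the five bounds (all of the form `c / (positive constant)`;
`if 0 < p.ell then .. else ..` for `anc`), `ζ := eps τ / 64`. -/
theorem kp_stage_ex (p : KpPrm) (η τ : ℝ) (hη : 0 < η) (hτ : 0 < τ) (hτ1 : τ ≤ 1) : ∃ g : KpStg, g.Fit p η τ := by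
  classical
  obtain ⟨G, hG⟩ : ∃ G : ℕ, G = ⌈2 * (1 / τ + 1) / τ⌉₊ := ⟨_, rfl⟩
  obtain ⟨sG, hsG⟩ : ∃ sG : ℝ, sG = ((G : ℝ) + 1) * τ / 2 := ⟨_, rfl⟩
  obtain ⟨U, hU⟩ : ∃ U : ℝ, U = 1 / τ + 2 := ⟨_, rfl⟩
  have hτi : 0 < 1 / τ := by positivity
  have hU0 : 0 < U := by rw [hU]; positivity
  have hsG1 : 1 / τ + 1 ≤ sG := by
    have h1 : 2 * (1 / τ + 1) / τ ≤ (G : ℝ) := by rw [hG]; exact Nat.le_ceil _
    rw [div_le_iff₀ hτ] at h1
    rw [hsG]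
    nlinarith
  have hsG0 : 0 < sG := by linarith
  have hA : 0 < sG + U + 4 := by linarith
  have hB : 0 < U + 4 := by linarith
  have hC : 0 < sG + 2 := by linarith
  obtain ⟨e4, he4, he4'⟩ : ∃ e4 : ℝ, 0 < e4 ∧ (0 < p.ell → e4 ≤ p.ell / (16 * (U + 4))) := by
    by_cases h : 0 < p.ell
    · exact ⟨p.ell / (16 * (U + 4)), by positivity, fun _ => le_rfl⟩
    · exact ⟨1, one_pos, fun h' => absurd h' h⟩
  obtain ⟨eps, heps⟩ : ∃ eps : ℝ, eps = min τ (min (τ / (32 * (sG + U + 4))) (min (η / (16 * (U + 4)))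
      (min e4 (τ / 64 / (64 * (U + 4) * (sG + 2)))))) := ⟨_, rfl⟩
  have heps0 : 0 < eps := by
    rw [heps]
    refine lt_min hτ (lt_min (by positivity) (lt_min (by positivity) (lt_min he4 (by positivity))))
  have b1 : eps ≤ τ := by rw [heps]; exact min_le_left _ _
  have b2 : eps ≤ τ / (32 * (sG + U + 4)) := by
    rw [heps]; exact (min_le_right _ _).trans (min_le_left _ _)
  have b3 : eps ≤ η / (16 * (U + 4)) := by
    rw [heps]; exact (min_le_right _ _).trans ((min_le_right _ _).trans (min_le_left _ _))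
  have b4 : eps ≤ e4 := by
    rw [heps]
    exact (min_le_right _ _).trans ((min_le_right _ _).trans ((min_le_right _ _).trans (min_le_left _ _)))
  have b5 : eps ≤ τ / 64 / (64 * (U + 4) * (sG + 2)) := by
    rw [heps]
    exact (min_le_right _ _).trans ((min_le_right _ _).trans ((min_le_right _ _).trans (min_le_right _ _)))
  refine ⟨⟨⌈1 / τ⌉₊, eps, G, fun m => ((m : ℝ) + 1) * τ / 2, U, τ / 64, eps * τ / 64⟩, ?_⟩
  refine
    { stage := Nat.le_ceil _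
      eps_pos := heps0
      eps_le := b1
      σ_zero := ?_
      σ_step := ?_
      σ_end := ?_
      U_ge := hU.ge
      deep := ?_
      ang := ?_
      anc := ?_
      ι_pos := by positivity
      ι_le := le_rfl
      many := ?_
      ζ_pos := by positivity
      ζ_le := le_rfl }
  · simp only [Nat.cast_zero]
    constructor <;> linarith
  · intro m _
    simp only [Nat.cast_add, Nat.cast_one]
    constructor <;> linarith
  · simp only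
    rw [← hsG]
    exact hsG1
  · simp only
    rw [← hsG]
    rw [le_div_iff₀ (by positivity)] at b2
    linarith
  · simp only
    rw [le_div_iff₀ (by positivity)] at b3
    linarith
  · intro h
    simp only
    have := b4.trans (he4' h)
    rw [le_div_iff₀ (by positivity)] at this
    linarith
  · simp only
    rw [← hsG]
    rw [le_div_iff₀ (by positivity)] at b5
    linarith

/-- `K4bHubPre` of `S4B/SamContract`, with the hypotheses `v = one → ell = 0` and `τ ≤ 1` -/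
def KpHubPre : Prop :=
  ∀ (v : KbVer) (S η : ℝ) (p : KpPrm), 0 < η → p.Ok → p.S = S → (v = KbVer.one → p.ell = 0) → KpCrit v S η p → ∀ τ : ℝ, 0 < τ → τ ≤ 1 →
    ∃ (D : K4bPre v) (ζ δ : ℝ), D.F.Ok ∧ KbSubP D.F.R D.Kp ∧ KpExcl1 D.F p.k ζ ∧ (v = KbVer.two → KpExcl2 D.F p.k p.ell δ ζ) ∧ ζ < D.th ∧ D.thc ≤ δ ∧ 0 < D.eps ∧
      ∀ᶠ k in uf, (D.sam k).Guard p → (D.sam k).Ks ≤ ((D.sam k).N0 ^ (D.sam k).eps) ^ τ → ((D.sam k).G : ℝ) + 1 ≤ τ * Real.log (D.sam k).N0 →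
        (D.sam k).Kp * Real.log (D.sam k).N0 ≤ τ * (D.sam k).N0 → (D.sam k).Ok p τ

/-- **the glue** -/
theorem kp_hub_pre (hW : KpHubWin) (hG : KpHubGeo) (hA : KpHubAna) : KpHubPre := by
  intro v S η p hη hp hpS h1 hc τ hτ hτ1
  obtain ⟨g, hg⟩ := kp_stage_ex p η τ hη hτ hτ1
  obtain ⟨δ, W, hδ, hδζ, hWo⟩ := hW v S η τ p g hη hp hpS h1 hc hτ hτ1 hg
  obtain ⟨Ev, pal, ref, hEv, hana⟩ := hA v η τ δ p g W hη hp h1 hτ hτ1 hg hδ hδζ hWo
  obtain ⟨Kp, Mp, hgeo⟩ := hG v η τ δ p g W hη hp h1 hτ hτ1 hg hδ hδζ hWo Ev hEv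
  obtain ⟨a1, a2, a3, a4, a5⟩ := hgeo pal ref
  refine ⟨W.pre g δ ⟨Ev, pal, ref, Kp, Mp⟩, g.ζ, δ, a1, a2, a3, a4, ?_, le_rfl, hg.eps_pos, ?_⟩
  · show g.ζ < 2 * g.ζ
    linarith [hg.ζ_pos]
  · filter_upwards [a5, hana Kp Mp] with k b1 b2 c1 c2 c3 c4
    exact kp_sam_ok b1 b2 c1 c2 c3 c4

end

end Claimed.Agent.R252
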